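import Vale.Agent.P330.H933.Fld3
import Vale.Agent.Lib.PolyTime.Lists2
import Vale.Agent.Lib.PolyTime.Bitwise
import Vale.Agent.Lib.PolyTime.Unary

/-!
# Symbols as words

A symbol `x : Fin D → Fl l` is coded by the word `cS l x` of length `D * eF l` (the bits of the
names of the coordinates); every word of this length is the code of one symbol.
-/

set_option autoImplicit false

namespace Vale.Agent.P330.H985

open Function
open Vale.Agent.Lib.PolyTime Vale.Agent.P330.H933

/-! ### Bits of fixed width -/

/-- The first `e` binary digits. -/
def nbt (e n : ℕ) : List Bool := (List.range e).map fun i => n.testBit i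

@[simp] theorem length_nbt (e n : ℕ) : (nbt e n).length = e := by simp [nbt]

theorem testBit_val (w : List Bool) (i : ℕ) : (val w).testBit i = w.getD i false := by
  induction w generalizing i with
  | nil => simp
  | cons b w ih =>
    rw [val_cons]
    cases i with
    | zero => cases b <;> simp [Nat.testBit_zero]
    | succ i =>
      have : (b.toNat + 2 * val w) / 2 = val w := by cases b <;> simp; omega
      rw [Nat.testBit_succ, this, ih]; simp

theorem val_nbt {e n : ℕ} (h : n < 2 ^ e) : val (nbt e n) = n := by
  refine Nat.eq_of_testBit_eq fun i => ?_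
  rw [testBit_val]
  rcases lt_or_ge i e with hi | hi
  · rw [List.getD_eq_getElem _ _ (by simpa using hi)]; simp [nbt]
  · rw [List.getD_eq_default _ _ (by simpa using hi),
      Nat.testBit_lt_two_pow (lt_of_lt_of_le h (Nat.pow_le_pow_right (by norm_num) hi))]

theorem nbt_val (w : List Bool) : nbt w.length (val w) = w := by
  refine List.ext_getElem (by simp) fun i h1 h2 => ?_
  simp only [nbt, List.getElem_map, List.getElem_range]
  rw [testBit_val, List.getD_eq_getElem _ _ h2]

variable {A : Set Word} {α β : Type*} [Enc α] [Enc β]

theorem PT.nbt {e n : α → ℕ} (he : PT A e) (hb : PBd e) (hn : PT A n) :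
    PT A (fun a => nbt (e a) (n a)) :=
  PT.map (PT.range he hb) (f := fun a i => (n a).testBit i)
    (PT.testBit (hn.comp PT.fst') PT.snd')

/-! ### Symbols -/

/-- The coordinate `b` of a word. -/
noncomputable def vS {D : ℕ} (l : ℕ) (w : List Bool) (b : Fin D) : Fl l :=
  dec l (val ((w.drop (b * eF l)).take (eF l)))

/-- The code of a symbol. -/
noncomputable def cS {D : ℕ} (l : ℕ) (x : Fin D → Fl l) : List Bool :=
  (List.finRange D).flatMap fun b => nbt (eF l) (cod l (x b))

theorem val_take_lt (w : List Bool) (e : ℕ) : val (w.take e) < 2 ^ e :=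
  (val_lt _).trans_le (Nat.pow_le_pow_right (by norm_num) (by simp))

theorem vS_nil {D : ℕ} (l : ℕ) : vS (D := D) l [] = 0 := by
  funext b
  unfold vS
  simp [dec_zero]

theorem length_cS {D : ℕ} (l : ℕ) (x : Fin D → Fl l) : (cS l x).length = D * eF l := by
  unfold cS
  rw [List.length_flatMap]
  simp

/-- A block of a concatenation of blocks of equal length. -/
theorem take_drop_flatMap {γ : Type*} {e : ℕ} (f : γ → List Bool) (hf : ∀ c, (f c).length = e)
    (L : List γ) (i : ℕ) (hi : i < L.length) :
    ((L.flatMap f).drop (i * e)).take e = f L[i] := by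
  induction L generalizing i with
  | nil => simp at hi
  | cons c L ih =>
    rw [List.flatMap_cons]
    cases i with
    | zero => simp [hf c]
    | succ i =>
      have h1 : (i + 1) * e = (f c).length + i * e := by rw [hf c]; ring
      rw [h1, List.drop_append, List.drop_eq_nil_of_le (by omega)]
      simp only [List.nil_append, Nat.add_sub_cancel_left]
      rw [ih i (by simpa using hi)]
      simp

theorem vS_cS {D : ℕ} (l : ℕ) (x : Fin D → Fl l) : vS l (cS l x) = x := by
  funext b
  unfold vS cS
  have h := take_drop_flatMap (e := eF l) (fun b => nbt (eF l) (cod l (x b)))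
    (fun c => by simp) (List.finRange D) b (by simp)
  rw [h]
  simp [val_nbt (cod_lt _), dec_cod]

theorem cS_inj {D : ℕ} {l : ℕ} {x y : Fin D → Fl l} (h : cS l x = cS l y) : x = y := by
  rw [← vS_cS l x, h, vS_cS]

/-- A word is the concatenation of its blocks. -/
theorem flatMap_blocks (e : ℕ) : ∀ (D : ℕ) (w : List Bool), w.length = D * e →
    ((List.range D).flatMap fun b => (w.drop (b * e)).take e) = w
  | 0, w, h => by
    have : w = [] := List.length_eq_zero_iff.1 (by simpa using h)
    simp [this]
  | D + 1, w, h => by
    rw [List.range_succ, List.flatMap_append]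
    have h1 : (w.take (D * e)).length = D * e := by
      rw [List.length_take, h]; exact min_eq_left (Nat.mul_le_mul_right _ (Nat.le_succ D))
    have h2 := flatMap_blocks e D (w.take (D * e)) h1
    have h3 : ((List.range D).flatMap fun b => (w.drop (b * e)).take e) =
        (List.range D).flatMap fun b => ((w.take (D * e)).drop (b * e)).take e := by
      rw [List.flatMap_def, List.flatMap_def]
      congr 1
      refine List.map_congr_left fun b hb => ?_
      rw [List.mem_range] at hb
      rw [List.drop_take, List.take_take, min_eq_left]
      have h4 : (b + 1) * e ≤ D * e := Nat.mul_le_mul_right _ hb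
      have h5 : (b + 1) * e = b * e + e := by ring
      omega
    rw [h3, h2]
    simp only [List.flatMap_cons, List.flatMap_nil, List.append_nil]
    conv_rhs => rw [← List.take_append_drop (D * e) w]
    congr 1
    apply List.take_of_length_le
    rw [List.length_drop, h]
    have : (D + 1) * e = D * e + e := by ring
    omega

theorem cS_vS {D : ℕ} {l : ℕ} {w : List Bool} (h : w.length = D * eF l) :
    cS l (vS (D := D) l w) = w := by
  unfold cS vS
  have h1 : ∀ b : Fin D, nbt (eF l) (cod l (dec l (val ((w.drop (b * eF l)).take (eF l))))) =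
      (w.drop (b * eF l)).take (eF l) := by
    intro b
    rw [cod_dec (val_take_lt _ _)]
    have h2 : ((w.drop (b * eF l)).take (eF l)).length = eF l := by
      rw [List.length_take, List.length_drop, h]
      have h4 : ((b : ℕ) + 1) * eF l ≤ D * eF l := Nat.mul_le_mul_right _ b.2
      have h5 : ((b : ℕ) + 1) * eF l = b * eF l + eF l := by ring
      omega
    conv_lhs => rw [show eF l = ((w.drop (b * eF l)).take (eF l)).length from h2.symm]
    rw [h2]
    conv_rhs => rw [← nbt_val ((w.drop (b * eF l)).take (eF l)), h2]
  simp only [h1]
  have h6 : ((List.finRange D).flatMap fun b : Fin D => (w.drop (b.val * eF l)).take (eF l)) =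
      (List.range D).flatMap fun b => (w.drop (b * eF l)).take (eF l) := by
    rw [← List.map_coe_finRange_eq_range, List.flatMap_map]
  exact h6.trans (flatMap_blocks (eF l) D w h)

/-- Coordinates of words are computable in polynomial time. -/
theorem FT.vS {D : ℕ} {l : α → ℕ} (hl : LPar A l) {w : α → List Bool} (hw : PT A w) (b : Fin D) :
    FT A l (fun a => vS (l a) (w a) b) := by
  unfold H985.vS
  exact FT.dec (PT.valList (PT.take (PT.drop hw (PT.mul (PT.const _) hl.eF)) hl.eF))
    fun a => val_take_lt _ _

theorem PT.flatMap_finRange {D : ℕ} {f : α → Fin D → List β} (hf : ∀ b, PT A (fun a => f a b)) :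
    PT A (fun a => (List.finRange D).flatMap (f a)) := by
  have h : ∀ L : List (Fin D), PT A (fun a => L.flatMap (f a)) := by
    intro L
    induction L with
    | nil => exact (PT.const []).congr fun a => rfl
    | cons b L ih => exact ((hf b).append ih).congr fun a => by rw [List.flatMap_cons]
  exact h _

/-- Codes of symbols are computable in polynomial time. -/
theorem PT.cS {D : ℕ} {l : α → ℕ} (hl : LPar A l) {x : ∀ a, Fin D → Fl (l a)}
    (hx : ∀ b, FT A l (fun a => x a b)) : PT A (fun a => cS (l a) (x a)) :=
  PT.flatMap_finRange (f := fun a b => H985.nbt (H933.eF (l a)) (cod (l a) (x a b))) fun b =>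
    PT.nbt hl.eF hl.eFbd (hx b)

end Vale.Agent.P330.H985
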