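import Vale.Agent.P330.H985.Sym
import Vale.Agent.P330.H155.Prog
import Vale.Agent.P330.H874.MacPT

/-!
# The public record of a site

`Pub` is a first order record (numbers and lists); `Rep` says that a record describes the site `h`
of a register system.
-/

set_option autoImplicit false

namespace Vale.Agent.P330.H985

open Function
open Vale.Agent.Lib.PolyTime Vale.Agent.P330.H933
open Vale.Agent.P330.H155 (Cd Gen KIns Kit HProg RS)
open Vale.Agent.P330.H16 (Ins)

/-! ### Logarithms -/

theorem find_log (v : ℕ) :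
    (List.range (v + 1)).find? (fun k => decide (v < 3 ^ (k + 1))) = some (Nat.log 3 v) := by
  rw [List.find?_range_eq_some]
  refine ⟨?_, ?_, ?_⟩
  · simpa using Nat.lt_pow_succ_log_self (by norm_num) v
  · rw [List.mem_range]
    have := Nat.log_le_self 3 v
    omega
  · intro j hj
    have h : 3 ^ (j + 1) ≤ v := by
      apply Nat.pow_le_of_le_log
      · intro h0; subst h0; simp at hj
      · omega
    simpa using h

theorem PT.log3 {A : Set Word} {α : Type*} [Enc α] {f : α → Un} (hf : PT A f) :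
    PT A (fun a => Nat.log 3 (f a).v) := by
  have hv : PT A (fun a => (f a).v) := PT.unVal hf
  have hb : PBd (fun a => (f a).v + 1) := (PBd.unVal hf).add (PBd.const 1)
  have h1 : PT A (fun a => (List.range ((f a).v + 1)).find?
      (fun k => decide ((f a).v < 3 ^ (min k ((f a).v) + 1)))) := by
    refine PT.find? (PT.range (PT.add hv (PT.const 1)) hb) ?_
    refine PT.lt (hv.comp PT.fst') (PT.pow (PT.const 3)
      (PT.add (PT.min PT.snd' (hv.comp PT.fst')) (PT.const 1)) ?_)
    have hb' : PBd (fun p : α × ℕ => (f p.1).v + 1) :=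
      PBd.comp (b := fun a => (f a).v + 1) hb (PT.fst' (A := A))
    exact hb'.mono fun p => by
      have := min_le_right p.2 (f p.1).v
      omega
  refine (PT.optGetD h1 (PT.const 0)).congr fun a => ?_
  have h2 : (List.range ((f a).v + 1)).find?
      (fun k => decide ((f a).v < 3 ^ (min k ((f a).v) + 1))) =
      (List.range ((f a).v + 1)).find? (fun k => decide ((f a).v < 3 ^ (k + 1))) := by
    rw [List.find?_congr]
    intro k hk
    rw [List.mem_range] at hk
    rw [min_eq_left (by omega)]
  rw [h2, find_log]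
  rfl

theorem LPar.log3 {A : Set Word} {α : Type*} [Enc α] {f : α → Un} (hf : PT A f) :
    LPar A (fun a => Nat.log 3 (f a).v) := by
  refine ⟨PT.log3 hf, ?_⟩
  refine ((PBd.unVal hf).add (PBd.const 1)).mono fun a => ?_
  rcases Nat.eq_zero_or_pos (f a).v with h | h
  · rw [h]; simp
  · exact (Nat.pow_log_le_self 3 (by omega)).trans (Nat.le_succ _)

/-! ### Names of elements -/

/-- The element with the name `n` (reduced). -/
noncomputable def nm (l n : ℕ) : Fl l := dec l (n % 2 ^ eF l)

theorem nm_cod {l : ℕ} (x : Fl l) : nm l (cod l x) = x := by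
  unfold nm
  rw [Nat.mod_eq_of_lt (cod_lt x), dec_cod]

theorem nm_zero (l : ℕ) : nm l 0 = 0 := by
  unfold nm
  rw [Nat.zero_mod, dec_zero]

/-! ### Instructions and their names -/

/-- Names of low-level instructions: tag, generator or function, register, linear combination,
table. -/
abbrev KN : Type := ℕ × ℕ × ℕ × List (ℕ × ℕ) × List ℕ

/-- The table of a function of `γ` and `b`; the number of `(γ, b)` is `γ * D + b`. -/
def tabG {Γ : Type*} {D ng : ℕ} {β : Type*} (gE : Γ ≃ Fin ng) (f : Γ → Fin D → β) : List β :=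
  (List.finRange ng).flatMap fun g => (List.finRange D).map fun b => f (gE.symm g) b

/-- The name of a low-level instruction. -/
noncomputable def knOf {l nJ nG D ng : ℕ} {Γ : Type} (gE : Γ ≃ Fin ng) :
    KIns (Fl l) (Fin nJ) (Fin nG) Γ (Fin D) → KN
  | .lin c => (0, 0, 0, c.map fun p => (cod l p.1, p.2), [])
  | .tr a i => (1, a, i, [], [])
  | .gm a i => (2, a, i, [], [])
  | .t2 p i tab => (3, p, i, [], tabG gE tab)

/-! ### The record -/

/-- The public record of a site. -/
structure Pub where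
  /-- `3 ^ l` in unary -/
  u : Un
  /-- number of `v` in `Γ` -/
  gv : ℕ
  /-- number of `1` in `Γ` -/
  g1 : ℕ
  /-- `γ ↦` number of `γ * v`; the length is the order of `Γ` -/
  mv : List ℕ
  /-- `b, γ ↦` number of `γ * (eta b)⁻¹` -/
  rb : List (List ℕ)
  /-- `t, γ ↦` number of `γ * (generator t)` -/
  rt : List (List ℕ)
  /-- names of the values of the additive functions -/
  ph : List ℕ
  /-- codes of the rows of the hard-wired contents -/
  pr : List (List Bool)
  /-- name of the scaling factor of the right local code -/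
  ep : ℕ
  /-- number of base contents -/
  n : Un
  /-- the kit -/
  kit : List KN
  iT : List ℕ
  iM : List ℕ
  iS : ℕ
  iB : List ℕ
  /-- the content program -/
  pg : List (Ins ℕ)
  eqs : List (ℕ × ℕ)
  prods : List (ℕ × ℕ × ℕ)
  out0 : List ℕ
  out1 : List ℕ

/-- The tuple of the fields. -/
def Pub.tup (r : Pub) : Un × ℕ × ℕ × List ℕ × List (List ℕ) × List (List ℕ) × List ℕ ×
    List (List Bool) × ℕ × Un × List KN × List ℕ × List ℕ × ℕ × List ℕ × List (Ins ℕ) ×
    List (ℕ × ℕ) × List (ℕ × ℕ × ℕ) × List ℕ × List ℕ :=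
  (r.u, r.gv, r.g1, r.mv, r.rb, r.rt, r.ph, r.pr, r.ep, r.n, r.kit, r.iT, r.iM, r.iS, r.iB, r.pg,
    r.eqs, r.prods, r.out0, r.out1)

instance : Enc Pub := ⟨fun r => enc r.tup⟩

namespace Pub

variable {A : Set Word} {α : Type*} [Enc α]

theorem pt_tup : PT A Pub.tup := ⟨_, FP.id, fun _ => rfl⟩

/-- Records are computable in polynomial time if their fields are. -/
theorem pt_mk {f : α → Pub} (h : PT A (fun a => (f a).tup)) : PT A f := by
  obtain ⟨F, hF, hF'⟩ := h
  exact ⟨F, hF, fun a => hF' a⟩

variable {f : α → Pub} (hf : PT A f)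

include hf

theorem pt_u : PT A (fun a => (f a).u) := (pt_tup.comp hf).fst
theorem pt_gv : PT A (fun a => (f a).gv) := (pt_tup.comp hf).snd.fst
theorem pt_g1 : PT A (fun a => (f a).g1) := (pt_tup.comp hf).snd.snd.fst
theorem pt_mv : PT A (fun a => (f a).mv) := (pt_tup.comp hf).snd.snd.snd.fst
theorem pt_rb : PT A (fun a => (f a).rb) := (pt_tup.comp hf).snd.snd.snd.snd.fst
theorem pt_rt : PT A (fun a => (f a).rt) := (pt_tup.comp hf).snd.snd.snd.snd.snd.fst
theorem pt_ph : PT A (fun a => (f a).ph) := (pt_tup.comp hf).snd.snd.snd.snd.snd.snd.fst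
theorem pt_pr : PT A (fun a => (f a).pr) := (pt_tup.comp hf).snd.snd.snd.snd.snd.snd.snd.fst

omit hf in
theorem pt_tl (hf : PT A f) : PT A (fun a => ((f a).ep, (f a).n, (f a).kit, (f a).iT, (f a).iM,
    (f a).iS, (f a).iB, (f a).pg, (f a).eqs, (f a).prods, (f a).out0, (f a).out1)) :=
  (pt_tup.comp hf).snd.snd.snd.snd.snd.snd.snd.snd

theorem pt_ep : PT A (fun a => (f a).ep) := (pt_tl hf).fst
theorem pt_n : PT A (fun a => (f a).n) := (pt_tl hf).snd.fst
theorem pt_kit : PT A (fun a => (f a).kit) := (pt_tl hf).snd.snd.fst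
theorem pt_iT : PT A (fun a => (f a).iT) := (pt_tl hf).snd.snd.snd.fst
theorem pt_iM : PT A (fun a => (f a).iM) := (pt_tl hf).snd.snd.snd.snd.fst
theorem pt_iS : PT A (fun a => (f a).iS) := (pt_tl hf).snd.snd.snd.snd.snd.fst
theorem pt_iB : PT A (fun a => (f a).iB) := (pt_tl hf).snd.snd.snd.snd.snd.snd.fst
theorem pt_pg : PT A (fun a => (f a).pg) := (pt_tl hf).snd.snd.snd.snd.snd.snd.snd.fst
theorem pt_eqs : PT A (fun a => (f a).eqs) := (pt_tl hf).snd.snd.snd.snd.snd.snd.snd.snd.fst
theorem pt_prods : PT A (fun a => (f a).prods) :=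
  (pt_tl hf).snd.snd.snd.snd.snd.snd.snd.snd.snd.fst
theorem pt_out0 : PT A (fun a => (f a).out0) :=
  (pt_tl hf).snd.snd.snd.snd.snd.snd.snd.snd.snd.snd.fst
theorem pt_out1 : PT A (fun a => (f a).out1) :=
  (pt_tl hf).snd.snd.snd.snd.snd.snd.snd.snd.snd.snd.snd

omit hf

/-- The parameter of the field. -/
def l (r : Pub) : ℕ := Nat.log 3 r.u.v

/-- The length of a block of the kit. -/
def KL (r : Pub) : ℕ := r.kit.length + 1

include hf

theorem lpar : LPar A (fun a => (f a).l) := LPar.log3 (pt_u hf)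

theorem pt_KL : PT A (fun a => (f a).KL) := PT.add (PT.length (pt_kit hf)) (PT.const 1)

end Pub

end Vale.Agent.P330.H985
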