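import Vale.Agent.P330.H985.LinkEq
import Vale.Agent.P330.W.H624.Good

/-!
# The checks on words

`chkL` (the local check of a register) and `bchkL` (the test of the base registers) on records and
lists of words: polynomial time and correctness.
-/

set_option autoImplicit false

namespace Vale.Agent.P330.H985

open Function
open Vale.Agent.Lib.PolyTime Vale.Agent.P330.H933
open Vale.Agent.P330.H155 (Cd Gen KIns Kit HProg RS lcomb)
open Vale.Agent.P330.H16 (Ins)
open Vale.Agent.P330.H840 (Wires Dat datOf gr)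
open Vale.Agent.P330.W (Wd)
open Vale.Agent.P330.W.H624 (lCode rCode cdOf)

/-! ### Finite conjunctions and sums -/

section pt

variable {A : Set Word} {α γ : Type*} [Enc α] [Enc γ]

theorem PT.decide_congr {p q : α → Prop} [DecidablePred p] [DecidablePred q]
    (hp : PT A (fun a => decide (p a))) (h : ∀ a, p a ↔ q a) : PT A (fun a => decide (q a)) :=
  hp.congr fun a => by rw [decide_eq_decide]; exact h a

theorem PT.ball {ι : Type*} (s : Finset ι) {p : α → ι → Prop} [∀ a i, Decidable (p a i)]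
    [∀ a, Decidable (∀ i ∈ s, p a i)] (h : ∀ i ∈ s, PT A (fun a => decide (p a i))) :
    PT A (fun a => decide (∀ i ∈ s, p a i)) := by
  classical
  have key : ∀ t : Finset ι, t ⊆ s → PT A (fun a => decide (∀ i ∈ t, p a i)) := by
    intro t
    induction t using Finset.induction_on with
    | empty => intro _; exact (PT.const true).congr fun a => by simp
    | insert i t _ ih =>
      intro ht
      have h1 := ih ((Finset.subset_insert i t).trans ht)
      have h2 := h i (ht (Finset.mem_insert_self i t))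
      exact (PT.decide_and h2 h1).congr fun a => by rw [decide_eq_decide]; simp
  exact (key s (Finset.Subset.refl s)).congr fun a => by rw [decide_eq_decide]

theorem PT.ball' {ι : Type*} [Fintype ι] {p : α → ι → Prop} [∀ a i, Decidable (p a i)]
    [∀ a, Decidable (∀ i, p a i)] (h : ∀ i, PT A (fun a => decide (p a i))) :
    PT A (fun a => decide (∀ i, p a i)) := by
  classical
  exact (PT.ball Finset.univ (p := p) fun i _ => h i).congr fun a => by
    rw [decide_eq_decide]; simp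

/-- Bounded quantifiers with a computed bound. -/
theorem PT.ballRange {n : α → ℕ} (hn : PT A n) (hb : PBd n) {p : α → ℕ → Prop}
    [∀ a i, Decidable (p a i)] [∀ a, Decidable (∀ i < n a, p a i)]
    (h : PT A (fun q : α × ℕ => decide (p q.1 q.2))) :
    PT A (fun a => decide (∀ i < n a, p a i)) := by
  refine (PT.all (f := fun a i => decide (p a i)) (PT.range hn hb) h).congr fun a => ?_
  rw [Bool.eq_iff_iff]
  simp

theorem FT.finsum {ι : Type*} {l : α → ℕ} (s : Finset ι) {F : ∀ a, ι → Fl (l a)}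
    (hF : ∀ i ∈ s, FT A l (fun a => F a i)) : FT A l (fun a => ∑ i ∈ s, F a i) := by
  classical
  have key : ∀ t : Finset ι, t ⊆ s → FT A l (fun a => ∑ i ∈ t, F a i) := by
    intro t
    induction t using Finset.induction_on with
    | empty => intro _; exact FT.zero.congr fun a => by simp
    | insert i t hi ih =>
      intro ht
      exact (FT.add (hF i (ht (Finset.mem_insert_self i t)))
        (ih ((Finset.subset_insert i t).trans ht))).congr fun a => by
          rw [Finset.sum_insert hi]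
  exact key s (Finset.Subset.refl s)

/-- Scalars in the prime field. -/
theorem FT.zsmul2 {l : α → ℕ} (c : ZMod 2) {f : ∀ a, Fl (l a)} (hf : FT A l f) :
    FT A l (fun a => c • f a) := by
  have hc : c = 0 ∨ c = 1 := by
    revert c
    decide
  rcases hc with rfl | rfl
  · exact FT.zero.congr fun a => by simp
  · exact hf.congr fun a => by simp

/-- Membership in the space of the words satisfying fixed checks. -/
theorem PT.wd {D : ℕ} {l : α → ℕ} (P : Submodule (ZMod 2) (Fin D → ZMod 2))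
    {y : ∀ a, Fin D → Fl (l a)} [∀ a, Decidable (y a ∈ Wd P (Fl (l a)))]
    (hy : ∀ b, FT A l (fun a => y a b)) : PT A (fun a => decide (y a ∈ Wd P (Fl (l a)))) := by
  classical
  have h1 : PT A (fun a => decide (∀ h ∈ Finset.univ.filter (fun h => h ∈ P),
      ∑ i, h i • y a i = 0)) := by
    refine PT.ball _ fun h _ => ?_
    exact FT.eq (FT.finsum Finset.univ fun i _ => FT.zsmul2 (h i) (hy i)) FT.zero
  refine h1.congr fun a => ?_
  rw [decide_eq_decide]
  constructor
  · intro h2 h hh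
    exact h2 h (by simpa using hh)
  · intro h2 h hh
    exact h2 h (by simpa using hh)

end pt

/-! ### Constants of the local codes -/

/-- The fixed data of the local codes. -/
structure LC (D : ℕ) where
  P0 : Submodule (ZMod 2) (Fin D → ZMod 2)
  P1 : Submodule (ZMod 2) (Fin D → ZMod 2)
  B1 : Finset (Fin D)
  B2 : Finset (Fin D)
  b0 : Fin D
  /-- decoding tables of the two binary codes -/
  T0 : (Fin D → Bool) → Fin D → Bool
  T1 : (Fin D → Bool) → Fin D → Bool

section

variable {D : ℕ} (c : LC D)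

/-- The left local code. -/
def LC.m0 (l : ℕ) (x : Fin D → Fl l) : Prop := x ∈ Wd c.P0 (Fl l)

/-- The right local code with the factor `e`. -/
def LC.m1 (l : ℕ) (e : Fl l) (x : Fin D → Fl l) : Prop :=
  (fun b => (if b ∈ c.B1 then e else 1) * x b) ∈ Wd c.P1 (Fl l)

open Classical in
/-- The local check of a register on words. -/
noncomputable def chkL {nJ nG K : ℕ} (w : WC D nJ nG K) (r : Pub) (v : List (List Bool)) : Bool :=
  decide (c.m0 r.l (vS r.l (v.getD w.own [])) ∧
    c.m1 r.l (nm r.l r.ep) (fun b => vS r.l (v.getD (w.nbw b) []) b))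

/-- The number of a base register. -/
def bn (q D k g b : ℕ) : ℕ := k * q + (g * D + b)

/-- The test of the rows of the content `k` with the number `g`. -/
def bcS {nJ nG K : ℕ} (w : WC D nJ nG K) (l : ℕ) (e : Fl l) (r : Pub)
    (v : List (List (List Bool))) (k g : ℕ) : Prop :=
  (∀ b' : Fin D, c.m0 l (sv l v w.own (bn (r.q D) D k g b'))) ∧
  (∀ b' : Fin D, c.m1 l e (fun b => sv l v (w.nbw b) (bn (r.q D) D k g b') b)) ∧
  (∀ b : Fin D, c.m0 l (fun b' => sv l v w.own (bn (r.q D) D k g b') b)) ∧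
  (∀ b : Fin D, c.m1 l e (fun b' =>
    sv l v (w.lw b') (bn (r.q D) D k ((r.rb.getD b' []).getD g 0) b') b)) ∧
  (∀ b' b : Fin D, sv l v w.own (bn (r.q D) D k g b') b =
    sv l v w.iw (bn (r.q D) D k (r.mv.getD g 0) b) b') ∧
  (∀ b' ∈ Finset.univ.filter (fun b => b ∉ c.B1 ∧ b ∉ c.B2), ∀ b : Fin D,
    sv l v w.own (bn (r.q D) D k g b') b = sv l v w.own (bn (r.q D) D k g c.b0) b) ∧
  (∀ (t : Fin nG) (b : Fin D),
    sv l v w.own (bn (r.q D) D k ((r.rt.getD t []).getD g 0) c.b0) b =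
      sv l v (w.gw t) (bn (r.q D) D k g c.b0) b)

open Classical in
/-- The test of the base registers on words. -/
noncomputable def bchkL {nJ nG K : ℕ} (w : WC D nJ nG K) (r : Pub)
    (v : List (List (List Bool))) : Bool :=
  decide ((v.getD w.own []).length = r.n.v * r.q D) &&
    decide (∀ k < r.n.v, ∀ g < r.mv.length, bcS c w r.l (nm r.l r.ep) r v k g)

end

/-! ### Polynomial time -/

section pt

variable {A : Set Word} {α : Type*} [Enc α] {D : ℕ} (c : LC D)

open Classical in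
theorem PT.m0 {l : α → ℕ} {x : ∀ a, Fin D → Fl (l a)} (hx : ∀ b, FT A l (fun a => x a b)) :
    PT A (fun a => decide (c.m0 (l a) (x a))) := PT.wd c.P0 hx

open Classical in
theorem PT.m1 {l : α → ℕ} (hl : LPar A l) {e : ∀ a, Fl (l a)} (he : FT A l e)
    {x : ∀ a, Fin D → Fl (l a)} (hx : ∀ b, FT A l (fun a => x a b)) :
    PT A (fun a => decide (c.m1 (l a) (e a) (x a))) := by
  refine PT.wd c.P1 (y := fun a b => (if b ∈ c.B1 then e a else 1) * x a b) fun b => ?_
  refine FT.mul hl ?_ (hx b)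
  by_cases hb : b ∈ c.B1
  · exact he.congr fun a => by rw [if_pos hb]
  · exact FT.one.congr fun a => by rw [if_neg hb]

/-- **`chk` is computable in polynomial time.** -/
theorem pt_chkL {nJ nG K : ℕ} (w : WC D nJ nG K) {r : α → Pub} (hr : PT A r)
    {v : α → List (List Bool)} (hv : PT A v) : PT A (fun a => chkL c w (r a) (v a)) := by
  classical
  unfold chkL
  have hl := Pub.lpar hr
  have h1 : PT A (fun a => decide (c.m0 (r a).l (vS (r a).l ((v a).getD w.own [])))) :=
    PT.m0 c fun b => FT.vS hl (PT.getD hv (PT.const _) (PT.const [])) b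
  have h2 : PT A (fun a => decide (c.m1 (r a).l (nm (r a).l (r a).ep)
      (fun b => vS (r a).l ((v a).getD (w.nbw b) []) b))) :=
    PT.m1 c hl (FT.nm hl (Pub.pt_ep hr)) fun b =>
      FT.vS hl (PT.getD hv (PT.const _) (PT.const [])) b
  exact PT.decide_congr (PT.decide_and h1 h2) fun a => Iff.rfl

theorem PT.bn {q k g : α → ℕ} {b : α → ℕ} (hq : PT A q) (hk : PT A k) (hg : PT A g)
    (hb : PT A b) : PT A (fun a => bn (q a) D (k a) (g a) (b a)) :=
  PT.add (PT.mul hk hq) (PT.add (PT.mul hg (PT.const D)) hb)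

theorem pt_bcS {nJ nG K : ℕ} (w : WC D nJ nG K) {r : α → Pub} (hr : PT A r) {l : α → ℕ}
    (hl : LPar A l) {e : ∀ a, Fl (l a)} (he : FT A l e) {v : α → List (List (List Bool))}
    (hv : PT A v) {k g : α → ℕ} (hk : PT A k) (hg : PT A g)
    [∀ a, Decidable (bcS c w (l a) (e a) (r a) (v a) (k a) (g a))] :
    PT A (fun a => decide (bcS c w (l a) (e a) (r a) (v a) (k a) (g a))) := by
  classical
  have hq : PT A (fun a => (r a).q D) := Pub.pt_q hr D
  have h1 : PT A (fun a => decide (∀ b' : Fin D, c.m0 (l a)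
      (sv (l a) (v a) w.own (bn ((r a).q D) D (k a) (g a) b')))) :=
    PT.ball' fun b' => PT.m0 c fun b => FT.sv hl hv (PT.const _)
      (PT.bn hq hk hg (PT.const _)) b
  have h2 : PT A (fun a => decide (∀ b' : Fin D, c.m1 (l a) (e a)
      (fun b => sv (l a) (v a) (w.nbw b) (bn ((r a).q D) D (k a) (g a) b') b))) :=
    PT.ball' fun b' => PT.m1 c hl he fun b => FT.sv hl hv (PT.const _)
      (PT.bn hq hk hg (PT.const _)) b
  have h3 : PT A (fun a => decide (∀ b : Fin D, c.m0 (l a)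
      (fun b' => sv (l a) (v a) w.own (bn ((r a).q D) D (k a) (g a) b') b))) :=
    PT.ball' fun b => PT.m0 c fun b' => FT.sv hl hv (PT.const _)
      (PT.bn hq hk hg (PT.const _)) b
  have h4 : PT A (fun a => decide (∀ b : Fin D, c.m1 (l a) (e a) (fun b' =>
      sv (l a) (v a) (w.lw b')
        (bn ((r a).q D) D (k a) (((r a).rb.getD b' []).getD (g a) 0) b') b))) :=
    PT.ball' fun b => PT.m1 c hl he fun b' => FT.sv hl hv (PT.const _)
      (PT.bn hq hk (PT.getD (PT.getD (Pub.pt_rb hr) (PT.const _) (PT.const [])) hg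
        (PT.const 0)) (PT.const _)) b
  have h5 : PT A (fun a => decide (∀ b' b : Fin D,
      sv (l a) (v a) w.own (bn ((r a).q D) D (k a) (g a) b') b =
        sv (l a) (v a) w.iw (bn ((r a).q D) D (k a) ((r a).mv.getD (g a) 0) b) b')) :=
    PT.ball' fun b' => PT.ball' fun b => FT.eq
      (FT.sv hl hv (PT.const _) (PT.bn hq hk hg (PT.const _)) b)
      (FT.sv hl hv (PT.const _) (PT.bn hq hk (PT.getD (Pub.pt_mv hr) hg (PT.const 0))
        (PT.const _)) b')
  have h6 : PT A (fun a => decide (∀ b' ∈ Finset.univ.filter (fun b => b ∉ c.B1 ∧ b ∉ c.B2),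
      ∀ b : Fin D, sv (l a) (v a) w.own (bn ((r a).q D) D (k a) (g a) b') b =
        sv (l a) (v a) w.own (bn ((r a).q D) D (k a) (g a) c.b0) b)) :=
    PT.ball _ fun b' _ => PT.ball' fun b => FT.eq
      (FT.sv hl hv (PT.const _) (PT.bn hq hk hg (PT.const _)) b)
      (FT.sv hl hv (PT.const _) (PT.bn hq hk hg (PT.const _)) b)
  have h7 : PT A (fun a => decide (∀ (t : Fin nG) (b : Fin D),
      sv (l a) (v a) w.own (bn ((r a).q D) D (k a) (((r a).rt.getD t []).getD (g a) 0) c.b0) b =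
        sv (l a) (v a) (w.gw t) (bn ((r a).q D) D (k a) (g a) c.b0) b)) :=
    PT.ball' fun t => PT.ball' fun b => FT.eq
      (FT.sv hl hv (PT.const _) (PT.bn hq hk (PT.getD (PT.getD (Pub.pt_rt hr) (PT.const _)
        (PT.const [])) hg (PT.const 0)) (PT.const _)) b)
      (FT.sv hl hv (PT.const _) (PT.bn hq hk hg (PT.const _)) b)
  refine PT.decide_congr (PT.decide_and h1 (PT.decide_and h2 (PT.decide_and h3
    (PT.decide_and h4 (PT.decide_and h5 (PT.decide_and h6 h7)))))) fun a => ?_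
  unfold bcS
  exact Iff.rfl

/-- **`bchk` is computable in polynomial time.** -/
theorem pt_bchkL {nJ nG K : ℕ} (w : WC D nJ nG K) {r : α → Pub} (hr : PT A r)
    {v : α → List (List (List Bool))} (hv : PT A v) : PT A (fun a => bchkL c w (r a) (v a)) := by
  classical
  unfold bchkL
  have hl := Pub.lpar hr
  refine PT.and (PT.eqNat (PT.length (PT.getD hv (PT.const _) (PT.const [])))
    (PT.mul (PT.unVal (Pub.pt_n hr)) (Pub.pt_q hr D))) ?_
  have hn : PBd (fun a => (r a).n.v) := PBd.unVal (Pub.pt_n hr)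
  have hm : PBd (fun q : α × ℕ => (r q.1).mv.length) :=
    PBd.length ((Pub.pt_mv hr).comp (PT.fst' (A := A)))
  have h1 : PT A (fun a => decide (∀ k < (r a).n.v, ∀ g < (r a).mv.length,
      bcS c w (r a).l (nm (r a).l (r a).ep) (r a) (v a) k g)) := by
    refine PT.ballRange (PT.unVal (Pub.pt_n hr)) hn
      (PT.ballRange (PT.length ((Pub.pt_mv hr).comp PT.fst')) hm ?_)
    have hr' : PT A (fun q : (α × ℕ) × ℕ => r q.1.1) := hr.comp PT.fst'.fst
    exact pt_bcS c w hr' (Pub.lpar hr') (FT.nm (Pub.lpar hr') (Pub.pt_ep hr'))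
      (hv.comp PT.fst'.fst) PT.fst'.snd PT.snd'
  exact PT.decide_congr h1 fun a => Iff.rfl

end pt

/-! ### Correctness -/

section

variable {J Γ : Type} [AddCommGroup J] [Fintype J] [Group Γ] [DistribMulAction Γ J]
  {D l nJ nG n ng K : ℕ}

/-- The code is the concrete code with the constants `c`. -/
structure CRep (c : LC D) (S : Cd J Γ (Fin D) (Fl l)) (r : Pub) : Prop where
  C0 : S.C0 = lCode c.P0
  C1 : S.C1 = rCode c.P1 c.B1 (nm l r.ep)
  info : S.info = {b | b ∉ c.B1 ∧ b ∉ c.B2}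
  b0 : S.b0 = c.b0

omit [Fintype J] in
theorem CRep.m0 {c : LC D} {S : Cd J Γ (Fin D) (Fl l)} {r : Pub} (h : CRep c S r)
    (x : Fin D → Fl l) : c.m0 l x ↔ x ∈ S.C0 := by
  rw [h.C0]; exact Iff.rfl

omit [Fintype J] in
theorem CRep.m1 {c : LC D} {S : Cd J Γ (Fin D) (Fl l)} {r : Pub} (h : CRep c S r)
    (x : Fin D → Fl l) : c.m1 l (nm l r.ep) x ↔ x ∈ S.C1 := by
  rw [h.C1]; exact Iff.rfl

theorem getD_ofFn_cS {D K l : ℕ} (v : Fin K → Fin D → Fl l) (i : Fin K) :
    vS l ((List.ofFn fun i => cS l (v i)).getD (i : ℕ) []) = v i := by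
  rw [List.getD_eq_getElem _ _ (by simp)]
  simp [vS_cS]

variable {gE : Γ ≃ Fin ng} {R : RS J Γ (Fin D) (Fl l) (Fin nJ) (Fin nG) n}
  {h : J × Γ} {r : Pub}

open Classical in
/-- **Correctness of `chkL`.** -/
theorem chkL_iff {c : LC D} (hr : Rep gE R h r) (hc : CRep c R.S r) {w : WC D nJ nG K}
    {W : Wires R.S R.g.gG R.g.sJ K} (hW : WRep w W)
    {DL DR : (Fin D → Option (Fl l)) → Fin D → Fl l} {vchk : J × Γ → (ℕ → Fin D → Fl l) → Prop}
    {nxt : Bool → J × Γ → (ℕ → Fin D → Fl l) → List (Fin D → Fl l)}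
    {Dn : Q.Dyn (Fin n → J → Fl l)} (j : ℕ) (v : Fin K → Fin D → Fl l) :
    chkL c w r (List.ofFn fun i => cS l (v i)) = true ↔
      (datOf R W DL DR vchk nxt Dn).chk j h v := by
  obtain rfl := hr.l_eq
  unfold chkL Dat.chk
  rw [decide_eq_true_iff, hc.m0, hc.m1]
  simp only [getD_ofFn_cS]
  change _ ↔ v W.own ∈ R.S.C0 ∧ (fun b => v (W.nbw b) b) ∈ R.S.C1
  rw [hW.own, hW.nbw]

omit [Group Γ] in
theorem getD_mv {c : Γ → Γ} (gE : Γ ≃ Fin ng) (g : Γ) :
    (List.ofFn fun i : Fin ng => (gE (c (gE.symm i)) : ℕ)).getD (gE g) 0 = gE (c g) := by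
  rw [List.getD_eq_getElem _ _ (by simp)]
  simp

omit [Group Γ] in
theorem getD_rb {m : ℕ} {c : Fin m → Γ → Γ} (gE : Γ ≃ Fin ng) (t : Fin m) (g : Γ) :
    ((List.ofFn fun t => List.ofFn fun i : Fin ng => (gE (c t (gE.symm i)) : ℕ)).getD t
      []).getD (gE g) 0 = gE (c t g) := by
  have h1 : (List.ofFn fun t => List.ofFn fun i : Fin ng => (gE (c t (gE.symm i)) : ℕ)).getD
      (t : ℕ) [] = List.ofFn fun i : Fin ng => (gE (c t (gE.symm i)) : ℕ) := by
    rw [List.getD_eq_getElem _ _ (by simp)]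
    simp
  rw [h1, getD_mv gE g]

theorem bs_eq (hr : Rep gE R h r) {W : Wires R.S R.g.gG R.g.sJ K}
    {DL DR : (Fin D → Option (Fl l)) → Fin D → Fl l} {vchk : J × Γ → (ℕ → Fin D → Fl l) → Prop}
    {nxt : Bool → J × Γ → (ℕ → Fin D → Fl l) → List (Fin D → Fl l)}
    {Dn : Q.Dyn (Fin n → J → Fl l)} (v : Fin K → List (Fin D → Fl l)) (i : Fin K) (k : Fin n)
    (γ : Γ) (b' : Fin D) :
    (datOf R W DL DR vchk nxt Dn).bs (v i) k γ b' =
      sv l (List.ofFn fun i => (v i).map (cS l)) i (bn (r.q D) D k (gE γ) b') := by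
  rw [sv_ofFn]
  funext b
  unfold Dat.bs gr
  have h1 : (((datOf R W DL DR vchk nxt Dn).ν.symm (k, γ, b') :
      Fin (datOf R W DL DR vchk nxt Dn).nb) : ℕ) = bn (r.q D) D k (gE γ) b' := by
    change (((H840.nuOf R.en n).symm (k, γ, b') : Fin (n * R.q)) : ℕ) = _
    unfold H840.nuOf bn
    rw [hr.q]
    simp only [Equiv.symm_trans_apply, Equiv.symm_symm]
    change ((finProdFinEquiv (k, R.en.symm (γ, b')) : Fin (n * R.q)) : ℕ) = _
    rw [finProdFinEquiv_apply_val, hr.en_eq]
    ring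
  rw [h1]

open Classical in
/-- **Correctness of `bchkL`.** -/
theorem bchkL_iff {c : LC D} (hr : Rep gE R h r) (hc : CRep c R.S r) {w : WC D nJ nG K}
    {W : Wires R.S R.g.gG R.g.sJ K} (hW : WRep w W)
    {DL DR : (Fin D → Option (Fl l)) → Fin D → Fl l} {vchk : J × Γ → (ℕ → Fin D → Fl l) → Prop}
    {nxt : Bool → J × Γ → (ℕ → Fin D → Fl l) → List (Fin D → Fl l)}
    {Dn : Q.Dyn (Fin n → J → Fl l)} (v : Fin K → List (Fin D → Fl l)) :
    bchkL c w r (List.ofFn fun i => (v i).map (cS l)) = true ↔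
      (datOf R W DL DR vchk nxt Dn).bchk h v := by
  obtain rfl := hr.l_eq
  unfold bchkL Dat.bchk
  rw [Bool.and_eq_true, decide_eq_true_iff, decide_eq_true_iff]
  have hng : r.mv.length = ng := by rw [hr.mv]; simp
  refine and_congr ?_ ?_
  · have h1 : (List.ofFn fun i => (v i).map (cS r.l)).getD (w.own : ℕ) [] =
        (v w.own).map (cS r.l) := by
      rw [List.getD_eq_getElem _ _ (by simp)]
      simp
    rw [h1, List.length_map, hr.n_eq, hr.q, ← hW.own]
    exact Iff.rfl
  · rw [hr.n_eq, hng]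
    have key : ∀ (k : Fin n) (γ : Γ),
        bcS c w r.l (nm r.l r.ep) r (List.ofFn fun i => (v i).map (cS r.l)) k (gE γ) ↔
        ((∀ b', (datOf R W DL DR vchk nxt Dn).bs (v W.own) k γ b' ∈ R.S.C0) ∧
        (∀ b', (fun b => (datOf R W DL DR vchk nxt Dn).bs (v (W.nbw b)) k γ b' b) ∈ R.S.C1) ∧
        (∀ b, (fun b' => (datOf R W DL DR vchk nxt Dn).bs (v W.own) k γ b' b) ∈ R.S.C0) ∧
        (∀ b, (fun b' => (datOf R W DL DR vchk nxt Dn).bs (v (W.lw b')) k
          (γ * (R.S.eta b')⁻¹) b' b) ∈ R.S.C1) ∧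
        (∀ b' b, (datOf R W DL DR vchk nxt Dn).bs (v W.own) k γ b' b =
          (datOf R W DL DR vchk nxt Dn).bs (v W.iw) k (γ * h.2) b b') ∧
        (∀ b' ∈ R.S.info, (datOf R W DL DR vchk nxt Dn).bs (v W.own) k γ b' =
          (datOf R W DL DR vchk nxt Dn).bs (v W.own) k γ R.S.b0) ∧
        (∀ t, (datOf R W DL DR vchk nxt Dn).bs (v W.own) k (γ * R.g.gG t) R.S.b0 =
          (datOf R W DL DR vchk nxt Dn).bs (v (W.gw t)) k γ R.S.b0)) := by
      intro k γ
      unfold bcS
      simp only [bs_eq hr, hc.m0, hc.m1, hW.own, hW.nbw, hW.lw, hW.iw, hW.gw, hc.b0, hc.info]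
      have e1 : ∀ b' : Fin D, ((r.rb.getD b' []).getD (gE γ) 0) = gE (γ * (R.S.eta b')⁻¹) := by
        intro b'
        rw [hr.rb]
        exact getD_rb (c := fun b g => g * (R.S.eta b)⁻¹) gE b' γ
      have e2 : r.mv.getD (gE γ) 0 = gE (γ * h.2) := by
        rw [hr.mv]
        exact getD_mv (c := fun g => g * h.2) gE γ
      have e3 : ∀ t : Fin nG, ((r.rt.getD t []).getD (gE γ) 0) = gE (γ * R.g.gG t) := by
        intro t
        rw [hr.rt]
        exact getD_rb (c := fun t g => g * R.g.gG t) gE t γ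
      simp only [e1, e2, e3, funext_iff, Set.mem_ofPred_eq, Finset.mem_filter, Finset.mem_univ,
        true_and]
    constructor
    · intro h1 k
      have h2 := fun γ => (key k γ).1 (h1 k k.2 (gE γ) (gE γ).2)
      exact ⟨fun γ b' => (h2 γ).1 b', fun γ b' => (h2 γ).2.1 b', fun γ b => (h2 γ).2.2.1 b,
        fun γ b => (h2 γ).2.2.2.1 b, fun γ b' b => (h2 γ).2.2.2.2.1 b' b,
        fun γ b' hb => (h2 γ).2.2.2.2.2.1 b' hb, fun γ t => (h2 γ).2.2.2.2.2.2 t⟩
    · intro h1 k hk g hg
      have h2 := h1 ⟨k, hk⟩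
      have h3 := (key ⟨k, hk⟩ (gE.symm ⟨g, hg⟩)).2
      rw [Equiv.apply_symm_apply] at h3
      exact h3 ⟨fun b' => h2.1 _ b', fun b' => h2.2.1 _ b', fun b => h2.2.2.1 _ b,
        fun b => h2.2.2.2.1 _ b, fun b' b => h2.2.2.2.2.1 _ b' b,
        fun b' hb => h2.2.2.2.2.2.1 _ b' hb, fun t => h2.2.2.2.2.2.2 _ t⟩

end

end Vale.Agent.P330.H985
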