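import Vale.Agent.P330.H985.Site
import Vale.Agent.P330.H155.RSJ

/-!
# The site programs of the family of register systems

`wJ`, `cJ`: the numbers of the wires and the constants of the local codes; `site_repJ`: the
programs `sitePrg cJ wJ` describe the register system `T.Y I` if the records describe the sites.
-/

set_option autoImplicit false

namespace Vale.Agent.P330.H985

open Vale.Agent.Lib.PolyTime Vale.Agent.P330.H933
open Vale.Agent.P330.H155 (TopJ nLab OmJ SJ XJ)
open Vale.Agent.P330.H604 (wKe ocK ocW gE)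
open Vale.Agent.P330.H840 (A0 lqJ dJ leJ dcr scl)
open Vale.Agent.P330.H708 (tabB decLC)

/-- The numbers of the wires. -/
noncomputable def wJ : WC (nLab A0) 8 12 (ocK A0 75) where
  own := wKe (Fin (nLab A0)) (Fin 12) (Fin 8) 75 (.inl ())
  nbw b := wKe (Fin (nLab A0)) (Fin 12) (Fin 8) 75 (.inr (.inl b))
  hw b b' := wKe (Fin (nLab A0)) (Fin 12) (Fin 8) 75 (.inr (.inr (.inl (b, b'))))
  lw b := wKe (Fin (nLab A0)) (Fin 12) (Fin 8) 75 (.inr (.inr (.inr (.inl b))))
  iw := wKe (Fin (nLab A0)) (Fin 12) (Fin 8) 75 (.inr (.inr (.inr (.inr (.inl ())))))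
  gw t := wKe (Fin (nLab A0)) (Fin 12) (Fin 8) 75 (.inr (.inr (.inr (.inr (.inr (.inl t))))))
  jw s := wKe (Fin (nLab A0)) (Fin 12) (Fin 8) 75 (.inr (.inr (.inr (.inr (.inr (.inr (.inl s)))))))

/-- The constants of the local codes. -/
noncomputable def cJ : LC (nLab A0) where
  P0 := A0.P false
  P1 := A0.P true
  B1 := A0.B false
  B2 := A0.B true
  b0 := A0.b0
  T0 := tabB (A0.P false) (2 ^ (A0.j * A0.t - 15))
  T1 := tabB (A0.P true) (2 ^ (A0.j * A0.t - 15))

variable (T : TopJ) (I : EndOfLine)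

theorem wrepJ : WRep wJ (ocW A0 (lqJ I) (dJ I) (th (leJ I)) 75) where
  own := rfl
  nbw := rfl
  hw := rfl
  lw := rfl
  iw := rfl
  gw := rfl
  jw := rfl

theorem crepJ {r : Pub} (hep : r.ep = cod (leJ I) (th (leJ I))) : CRep cJ (T.rs I).S r where
  C0 := rfl
  C1 := by
    rw [hep, nm_cod]
    rfl
  info := rfl
  b0 := rfl

theorem drepJ {r : Pub} (hep : r.ep = cod (leJ I) (th (leJ I))) :
    DRep cJ r (dcr A0 (th (leJ I)) false) (dcr A0 (th (leJ I)) true) where
  DL := by
    funext y
    unfold dcr scl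
    simp only [Bool.false_eq_true, if_false]
    rfl
  DR := by
    rw [hep, nm_cod]
    funext y
    unfold dcr scl
    simp only [if_true]
    rfl

/-- **The site programs describe the register systems.** -/
theorem site_repJ {pub : OmJ I → Pub} (hr : ∀ h, Rep (gE (lqJ I)) (T.rs I) h (pub h))
    (hep : ∀ h, (pub h).ep = cod (leJ I) (th (leJ I))) :
    (sitePrg cJ wJ).Rep (T.Y I) pub :=
  sitePrg_rep (Dn := T.dyn I) hr (fun h => crepJ T I (hep h)) (fun h => drepJ I (hep h)) (wrepJ I)

/-- The site programs are computable in polynomial time. -/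
theorem site_ptJ (A : Set Word) : (sitePrg cJ wJ).PTs A := sitePrg_pts cJ wJ

end Vale.Agent.P330.H985
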