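import Vale.Agent.P330.H985.Pub
import Vale.Agent.P330.H155.Mach

/-!
# The site function `link` on words

`linkL` is the site function of the registers on records and lists of words; it is computable in
polynomial time (`pt_linkL`) and agrees with `datOf.link` if the record describes the site
(`linkL_eq`).
-/

set_option autoImplicit false

namespace Vale.Agent.P330.H985

open Function
open Vale.Agent.Lib.PolyTime Vale.Agent.P330.H933
open Vale.Agent.P330.H155 (Cd Gen KIns Kit HProg RS lcomb)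
open Vale.Agent.P330.H16 (Ins)
open Vale.Agent.P330.H874 (insRaw insMap)
open Vale.Agent.P330.H840 (Wires Dat datOf gr)

/-! ### Constants -/

/-- The numbers of the wires. -/
structure WC (D nJ nG K : ℕ) where
  own : Fin K
  nbw : Fin D → Fin K
  hw : Fin D → Fin D → Fin K
  lw : Fin D → Fin K
  iw : Fin K
  gw : Fin nG → Fin K
  jw : Fin nJ → Fin K

/-- The list of the values of a numbered family. -/
def fl {n K : ℕ} (f : Fin n → Fin K) : List ℕ := List.ofFn fun i => (f i : ℕ)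

theorem getD_fl {n K : ℕ} (f : Fin n → Fin K) (i : Fin n) : (fl f).getD i 0 = f i := by
  unfold fl
  rw [List.getD_eq_getElem _ _ (by simp)]
  simp

section

variable {D : ℕ}

/-! ### Stacks -/

/-- Entry `i` of the stack at the wire `w`. -/
noncomputable def sv (l : ℕ) (v : List (List (List Bool))) (w i : ℕ) : Fin D → Fl l :=
  vS l ((v.getD w []).getD i [])

/-- The decoded stack. -/
noncomputable def dst (l : ℕ) (st : List (List Bool)) : List (Fin D → Fl l) := st.map (vS l)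

theorem gr_dst (l : ℕ) (st : List (List Bool)) (i : ℕ) :
    gr (dst (D := D) l st) i = vS l (st.getD i []) := by
  unfold gr dst
  rw [List.getD_eq_getElem?_getD, List.getElem?_map, List.getD_eq_getElem?_getD]
  rcases st[i]? with _ | w
  · simp [vS_nil]
  · simp

/-! ### Instructions -/

/-- The site function of a low-level instruction, on names. -/
noncomputable def klS (l : ℕ) (r : Pub) (b0 : Fin D) (own : ℕ → Fin D → Fl l)
    (vJ vG : ℕ → ℕ → Fin D → Fl l) (off : ℕ) (k : KN) (b : Fin D) : Fl l :=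
  if k.1 = 0 then (k.2.2.2.1.map fun p => nm l p.1 * own (off + p.2) b).sum
  else if k.1 = 1 then vJ k.2.1 (off + k.2.2.1) b
  else if k.1 = 2 then vG k.2.1 (off + k.2.2.1) b
  else nm l (r.ph.getD k.2.1 0) * own (off + k.2.2.1) b -
    own (off + k.2.2.2.2.getD (r.gv * D + b) 0) b0

/-- The number of base registers per content. -/
def Pub.q (r : Pub) (D : ℕ) : ℕ := r.mv.length * D

/-- The register of the content number `i`. -/
def Pub.reg (r : Pub) (D i : ℕ) : ℕ := r.n.v * r.q D + i * r.KL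

/-- The site function of a high-level instruction, on names. -/
noncomputable def hlS (l : ℕ) (r : Pub) (b0 : Fin D) (own : ℕ → Fin D → Fl l)
    (i : ℕ × (ℕ × ℕ × ℕ) × List (ℕ × ℕ)) (b : Fin D) : Fl l :=
  if i.1 = 0 then (i.2.2.map fun p => nm l p.1 * own (r.reg D p.2) b).sum
  else if i.1 = 1 then own (r.reg D i.2.1.2.1 + r.iT.getD i.2.1.1 0) b
  else if i.1 = 2 then own (r.reg D i.2.1.2.1 + r.iM.getD i.2.1.1 0) b
  else if i.1 = 3 then vS l (r.pr.getD i.2.1.1 []) b
  else if i.1 = 4 then own (r.reg D i.2.1.2.1 + r.iS) b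
  else own (r.reg D i.2.1.2.1) b0 * own (r.reg D i.2.1.2.2) b

/-- The site function of the register `nb + j`. -/
noncomputable def lkS (l : ℕ) (r : Pub) (b0 : Fin D) (own : ℕ → Fin D → Fl l)
    (vJ vG : ℕ → ℕ → Fin D → Fl l) (j : ℕ) (b : Fin D) : Fl l :=
  if j % r.KL = 0 then
    (if j / r.KL < r.n.v then own (j / r.KL * r.q D + (r.g1 * D + b0)) b
      else hlS l r b0 own (insRaw (r.pg.getD (j / r.KL - r.n.v) (.lin []))) b)
  else klS l r b0 own vJ vG (r.reg D (j / r.KL)) (r.kit.getD (j % r.KL - 1) (0, 0, 0, [], [])) b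

/-- The site function `link` on words. -/
noncomputable def linkL {nJ nG K : ℕ} (w : WC D nJ nG K) (b0 : Fin D) (r : Pub) (j : ℕ)
    (v : List (List (List Bool))) : List Bool :=
  cS r.l (lkS r.l r b0 (sv r.l v w.own) (fun a => sv r.l v ((fl w.jw).getD a 0))
    (fun a => sv r.l v ((fl w.gw).getD a 0)) j)

/-! ### Polynomial time -/

section pt

variable {A : Set Word} {α γ : Type*} [Enc α] [Enc γ]

theorem FT.nm {l : α → ℕ} (hl : LPar A l) {n : α → ℕ} (hn : PT A n) :
    FT A l (fun a => nm (l a) (n a)) := by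
  unfold H985.nm
  refine FT.dec (PT.mod hn (PT.pow (PT.const 2) hl.eF hl.eFbd)) fun a => ?_
  exact Nat.mod_lt _ (by positivity)

theorem list_sum_eq {M : Type*} [AddCommMonoid M] {β : Type*} (L : List β) (f : β → M) (d : β) :
    (L.map f).sum = ∑ i ∈ Finset.range L.length, f (L.getD i d) := by
  induction L with
  | nil => simp
  | cons x L ih =>
    rw [List.map_cons, List.sum_cons, List.length_cons, Finset.sum_range_succ', ih, add_comm]
    simp

theorem FT.listSum {l : α → ℕ} (hl : LPar A l) {L : α → List γ} (hL : PT A L) (d : γ)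
    {f : ∀ a, γ → Fl (l a)} (hf : FT A (fun p : α × γ => l p.1) (fun p => f p.1 p.2)) :
    FT A l (fun a => ((L a).map (f a)).sum) := by
  refine (FT.sum_range hl (PT.length hL) (PBd.length hL)
    (F := fun a i => f a ((L a).getD i d)) ?_).congr fun a => (list_sum_eq _ _ _).symm
  exact FT.comp (l := fun p : α × γ => l p.1) (f := fun p : α × γ => f p.1 p.2)
    (u := fun p : α × ℕ => (p.1, (L p.1).getD p.2 d)) hf
    (PT.fst'.pair (PT.getD (hL.comp PT.fst') PT.snd' (PT.const d)))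

theorem FT.sv {l : α → ℕ} (hl : LPar A l) {v : α → List (List (List Bool))} (hv : PT A v)
    {w i : α → ℕ} (hw : PT A w) (hi : PT A i) (b : Fin D) :
    FT A l (fun a => sv (l a) (v a) (w a) (i a) b) :=
  FT.vS hl (PT.getD (PT.getD hv hw (PT.const [])) hi (PT.const [])) b

theorem Pub.pt_q {f : α → Pub} (hf : PT A f) (D : ℕ) : PT A (fun a => (f a).q D) :=
  PT.mul (PT.length (Pub.pt_mv hf)) (PT.const D)

theorem Pub.pt_reg {f : α → Pub} (hf : PT A f) (D : ℕ) {i : α → ℕ} (hi : PT A i) :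
    PT A (fun a => (f a).reg D (i a)) :=
  PT.add (PT.mul (PT.unVal (Pub.pt_n hf)) (Pub.pt_q hf D)) (PT.mul hi (Pub.pt_KL hf))

/-- A family of stack entries: every entry is computable in polynomial time. -/
def OT (A : Set Word) (l : α → ℕ) (own : ∀ a, ℕ → Fin D → Fl (l a)) : Prop :=
  ∀ b, FT A (fun p : α × ℕ => l p.1) (fun p => own p.1 p.2 b)

theorem OT.at {l : α → ℕ} {own : ∀ a, ℕ → Fin D → Fl (l a)} (h : OT A l own) {β : Type*} [Enc β]
    {u : β → α} (hu : PT A u) {i : β → ℕ} (hi : PT A i) (b : Fin D) :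
    FT A (fun x => l (u x)) (fun x => own (u x) (i x) b) :=
  FT.comp (l := fun p : α × ℕ => l p.1) (f := fun p : α × ℕ => own p.1 p.2 b)
    (u := fun x => (u x, i x)) (h b) (hu.pair hi)

/-- The same for families of neighbours. -/
def OT2 (A : Set Word) (l : α → ℕ) (vJ : ∀ a, ℕ → ℕ → Fin D → Fl (l a)) : Prop :=
  ∀ b, FT A (fun p : α × ℕ × ℕ => l p.1) (fun p => vJ p.1 p.2.1 p.2.2 b)

theorem OT2.at {l : α → ℕ} {vJ : ∀ a, ℕ → ℕ → Fin D → Fl (l a)} (h : OT2 A l vJ) {β : Type*}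
    [Enc β] {u : β → α} (hu : PT A u) {i j : β → ℕ} (hi : PT A i) (hj : PT A j) (b : Fin D) :
    FT A (fun x => l (u x)) (fun x => vJ (u x) (i x) (j x) b) :=
  FT.comp (l := fun p : α × ℕ × ℕ => l p.1) (f := fun p : α × ℕ × ℕ => vJ p.1 p.2.1 p.2.2 b)
    (u := fun x => (u x, i x, j x)) (h b) (hu.pair (hi.pair hj))

variable {l : α → ℕ} {r : α → Pub} {own : ∀ a, ℕ → Fin D → Fl (l a)}
  {vJ vG : ∀ a, ℕ → ℕ → Fin D → Fl (l a)}

theorem FT.klS (hl : LPar A l) (hr : PT A r) (b0 : Fin D) (hown : OT A l own) (hJ : OT2 A l vJ)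
    (hG : OT2 A l vG) {off : α → ℕ} (hoff : PT A off) {k : α → KN} (hk : PT A k) (b : Fin D) :
    FT A l (fun a => klS (l a) (r a) b0 (own a) (vJ a) (vG a) (off a) (k a) b) := by
  unfold H985.klS
  refine FT.ite (PT.eqNat hk.fst (PT.const 0)) ?_ (FT.ite (PT.eqNat hk.fst (PT.const 1)) ?_
    (FT.ite (PT.eqNat hk.fst (PT.const 2)) ?_ ?_))
  · refine FT.listSum hl hk.snd.snd.snd.fst (0, 0) ?_
    refine FT.mul (hl.comp PT.fst') (FT.nm (hl.comp PT.fst') PT.snd'.fst) ?_
    exact hown.at (u := fun p : α × ℕ × ℕ => p.1) (i := fun p : α × ℕ × ℕ => off p.1 + p.2.2)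
      PT.fst' (PT.add (hoff.comp PT.fst') PT.snd'.snd) b
  · exact hJ.at (u := fun a => a) PT.id hk.snd.fst (PT.add hoff hk.snd.snd.fst) b
  · exact hG.at (u := fun a => a) PT.id hk.snd.fst (PT.add hoff hk.snd.snd.fst) b
  · refine FT.sub (FT.mul hl (FT.nm hl (PT.getD (Pub.pt_ph hr) hk.snd.fst (PT.const 0)))
      (hown.at (u := fun a => a) PT.id (PT.add hoff hk.snd.snd.fst) b)) ?_
    exact hown.at (u := fun a => a) PT.id (PT.add hoff (PT.getD hk.snd.snd.snd.snd
      (PT.add (PT.mul (Pub.pt_gv hr) (PT.const D)) (PT.const _)) (PT.const 0))) b0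

theorem FT.hlS (hl : LPar A l) (hr : PT A r) (b0 : Fin D) (hown : OT A l own)
    {i : α → ℕ × (ℕ × ℕ × ℕ) × List (ℕ × ℕ)} (hi : PT A i) (b : Fin D) :
    FT A l (fun a => hlS (l a) (r a) b0 (own a) (i a) b) := by
  unfold H985.hlS
  refine FT.ite (PT.eqNat hi.fst (PT.const 0)) ?_ (FT.ite (PT.eqNat hi.fst (PT.const 1)) ?_
    (FT.ite (PT.eqNat hi.fst (PT.const 2)) ?_ (FT.ite (PT.eqNat hi.fst (PT.const 3)) ?_
    (FT.ite (PT.eqNat hi.fst (PT.const 4)) ?_ ?_))))
  · refine FT.listSum hl hi.snd.snd (0, 0) ?_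
    refine FT.mul (hl.comp PT.fst') (FT.nm (hl.comp PT.fst') PT.snd'.fst) ?_
    exact hown.at (u := fun p : α × ℕ × ℕ => p.1)
      (i := fun p : α × ℕ × ℕ => (r p.1).reg D p.2.2) PT.fst'
      (Pub.pt_reg (hr.comp PT.fst') D PT.snd'.snd) b
  · exact hown.at (u := fun a => a) PT.id (PT.add (Pub.pt_reg hr D hi.snd.fst.snd.fst)
      (PT.getD (Pub.pt_iT hr) hi.snd.fst.fst (PT.const 0))) b
  · exact hown.at (u := fun a => a) PT.id (PT.add (Pub.pt_reg hr D hi.snd.fst.snd.fst)
      (PT.getD (Pub.pt_iM hr) hi.snd.fst.fst (PT.const 0))) b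
  · exact FT.vS hl (PT.getD (Pub.pt_pr hr) hi.snd.fst.fst (PT.const [])) b
  · exact hown.at (u := fun a => a) PT.id (PT.add (Pub.pt_reg hr D hi.snd.fst.snd.fst)
      (Pub.pt_iS hr)) b
  · exact FT.mul hl (hown.at (u := fun a => a) PT.id (Pub.pt_reg hr D hi.snd.fst.snd.fst) b0)
      (hown.at (u := fun a => a) PT.id (Pub.pt_reg hr D hi.snd.fst.snd.snd) b)

theorem FT.lkS (hl : LPar A l) (hr : PT A r) (b0 : Fin D) (hown : OT A l own) (hJ : OT2 A l vJ)
    (hG : OT2 A l vG) {j : α → ℕ} (hj : PT A j) (b : Fin D) :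
    FT A l (fun a => lkS (l a) (r a) b0 (own a) (vJ a) (vG a) (j a) b) := by
  unfold H985.lkS
  have hKL := Pub.pt_KL hr
  have hn : PT A (fun a => (r a).n.v) := PT.unVal (Pub.pt_n hr)
  have hi := PT.div hj hKL
  refine FT.ite (PT.eqNat (PT.mod hj hKL) (PT.const 0)) (FT.ite (PT.lt hi hn) ?_ ?_) ?_
  · exact hown.at (u := fun a => a) PT.id (PT.add (PT.mul hi (Pub.pt_q hr D))
      (PT.add (PT.mul (Pub.pt_g1 hr) (PT.const D)) (PT.const _))) b
  · exact FT.hlS hl hr b0 hown (H874.PT.insRaw (PT.getD (Pub.pt_pg hr) (PT.sub hi hn)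
      (PT.const _))) b
  · exact FT.klS hl hr b0 hown hJ hG (Pub.pt_reg hr D hi) (PT.getD (Pub.pt_kit hr)
      (PT.sub (PT.mod hj hKL) (PT.const 1)) (PT.const _)) b

/-- **`link` is computable in polynomial time.** -/
theorem pt_linkL {nJ nG K : ℕ} (w : WC D nJ nG K) (b0 : Fin D) {r : α → Pub} (hr : PT A r)
    {j : α → ℕ} (hj : PT A j) {v : α → List (List (List Bool))} (hv : PT A v) :
    PT A (fun a => linkL w b0 (r a) (j a) (v a)) := by
  unfold linkL
  have hl := Pub.lpar hr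
  refine PT.cS hl fun b => FT.lkS hl hr b0 ?_ ?_ ?_ hj b
  · intro b
    exact FT.sv (hl.comp PT.fst') (hv.comp PT.fst') (PT.const _) PT.snd' b
  · intro b
    exact FT.sv (hl.comp PT.fst') (hv.comp PT.fst')
      (PT.getD (PT.const (fl w.jw)) PT.snd'.fst (PT.const 0)) PT.snd'.snd b
  · intro b
    exact FT.sv (hl.comp PT.fst') (hv.comp PT.fst')
      (PT.getD (PT.const (fl w.gw)) PT.snd'.fst (PT.const 0)) PT.snd'.snd b

end pt

end

end Vale.Agent.P330.H985
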