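import Vale.Agent.P330.H985.Link

/-!
# The site function `link` on words: correctness

`Rep` says that a record describes the site `h` of a register system; then `linkL` is the coded
value of `datOf.link`.
-/

set_option autoImplicit false

namespace Vale.Agent.P330.H985

open Function
open Vale.Agent.Lib.PolyTime Vale.Agent.P330.H933
open Vale.Agent.P330.H155 (Cd Gen KIns Kit HProg RS lcomb)
open Vale.Agent.P330.H16 (Ins)
open Vale.Agent.P330.H874 (insRaw insMap)
open Vale.Agent.P330.H840 (Wires Dat datOf gr)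

/-! ### Tables -/

theorem getD_flatMap_const {γ β : Type*} {D : ℕ} (f : γ → List β) (d : β)
    (hf : ∀ c, (f c).length = D) (L : List γ) (i b : ℕ) (hi : i < L.length) (hb : b < D) :
    (L.flatMap f).getD (i * D + b) d = (f L[i]).getD b d := by
  induction L generalizing i with
  | nil => simp at hi
  | cons c L ih =>
    rw [List.flatMap_cons]
    cases i with
    | zero =>
      rw [Nat.zero_mul, Nat.zero_add, List.getD_append _ _ _ _ (by rw [hf]; exact hb)]
      rfl
    | succ i =>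
      have h1 : (i + 1) * D + b = (i * D + b) + (f c).length := by rw [hf]; ring
      rw [h1, List.getD_append_right _ _ _ _ (Nat.le_add_left _ _), Nat.add_sub_cancel]
      rw [ih i (by simpa using hi)]
      rfl

theorem getD_tabG {Γ : Type*} {D ng : ℕ} {β : Type*} (gE : Γ ≃ Fin ng) (f : Γ → Fin D → β)
    (v : Γ) (b : Fin D) (d : β) : (tabG gE f).getD (gE v * D + b) d = f v b := by
  unfold tabG
  rw [getD_flatMap_const (D := D) (fun g => (List.finRange D).map fun b => f (gE.symm g) b) d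
    (by simp) (List.finRange ng) (gE v) b (by simp) b.2]
  simp

theorem sv_ofFn {D K l : ℕ} (v : Fin K → List (Fin D → Fl l)) (i : Fin K) (m : ℕ) :
    sv l (List.ofFn fun i => (v i).map (cS l)) i m = gr (v i) m := by
  unfold sv gr
  have h1 : (List.ofFn fun i => (v i).map (cS l)).getD (i : ℕ) [] = (v i).map (cS l) := by
    rw [List.getD_eq_getElem _ _ (by simp)]
    simp
  rw [h1, List.getD_eq_getElem?_getD, List.getElem?_map, List.getD_eq_getElem?_getD]
  rcases (v i)[m]? with _ | x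
  · simp [vS_nil]
  · simp [vS_cS]

/-! ### Records and sites -/

section

variable {J Γ : Type} [AddCommGroup J] [Fintype J] [Group Γ] [Fintype Γ] [DistribMulAction Γ J]
  {D l nJ nG n ng K : ℕ}

/-- The record `r` describes the site `h`. -/
structure Rep (gE : Γ ≃ Fin ng) (R : RS J Γ (Fin D) (Fl l) (Fin nJ) (Fin nG) n)
    (h : J × Γ) (r : Pub) : Prop where
  l_eq : r.l = l
  n_eq : r.n.v = n
  q_eq : R.q = ng * D
  en_eq : ∀ (v : Γ) (b : Fin D), (R.en.symm (v, b) : ℕ) = gE v * D + b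
  gv : r.gv = gE h.2
  g1 : r.g1 = gE 1
  mv : r.mv = List.ofFn fun g : Fin ng => (gE (gE.symm g * h.2) : ℕ)
  rb : r.rb = List.ofFn fun b : Fin D =>
    List.ofFn fun g : Fin ng => (gE (gE.symm g * (R.S.eta b)⁻¹) : ℕ)
  rt : r.rt = List.ofFn fun t : Fin nG => List.ofFn fun g : Fin ng => (gE (gE.symm g * R.g.gG t) : ℕ)
  KL_pos : 0 < R.P.KL
  kit : r.kit = (List.range (R.P.KL - 1)).map fun k => knOf gE (R.P.ins k)
  t2_ok : ∀ k < R.P.KL - 1, ∀ p i tab, R.P.ins k = .t2 p i tab →
    nm l (r.ph.getD p 0) = R.g.phi p h.1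
  pg : r.pg = R.Q.prog.map (insMap (cod l))
  tr_ok : ∀ j i, Ins.tr j i ∈ R.Q.prog → r.iT.getD j 0 = R.P.iT j
  mx_ok : ∀ j i, Ins.mx j i ∈ R.Q.prog → r.iM.getD j 0 = R.P.iM j
  pub_ok : ∀ p, Ins.pub p ∈ R.Q.prog → r.pr.getD p [] = cS l (R.S.E (R.g.pubc p) h)
  iS : r.iS = R.P.iS
  iB : ∀ (v : Γ) (b : Fin D), r.iB.getD (gE v * D + b) 0 = R.P.iB v b
  eqs : r.eqs = R.Q.eqs
  prods : r.prods = R.Q.prods
  out0 : ∀ i < n, r.out0.getD i 0 = R.Q.out false i
  out1 : ∀ i < n, r.out1.getD i 0 = R.Q.out true i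

namespace Rep

variable {gE : Γ ≃ Fin ng} {R : RS J Γ (Fin D) (Fl l) (Fin nJ) (Fin nG) n}
  {h : J × Γ} {r : Pub}

omit [Fintype J] [Fintype Γ]

theorem KL (hr : Rep gE R h r) : r.KL = R.P.KL := by
  unfold Pub.KL
  rw [hr.kit]
  have := hr.KL_pos
  simp
  omega

theorem q (hr : Rep gE R h r) : r.q D = R.q := by
  unfold Pub.q
  rw [hr.mv, hr.q_eq]
  simp

theorem reg (hr : Rep gE R h r) (i : ℕ) : r.reg D i = R.reg i := by
  unfold Pub.reg RS.reg RS.nb
  rw [hr.n_eq, hr.q, hr.KL]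

theorem reg0 (hr : Rep gE R h r) : r.g1 * D + (R.S.b0 : ℕ) = R.reg0 := by
  unfold RS.reg0
  rw [hr.en_eq, hr.g1]

theorem klS_eq (hr : Rep gE R h r) (off : ℕ) (own : ℕ → Fin D → Fl l)
    {vJ vG : ℕ → ℕ → Fin D → Fl l} {vJ' : Fin nJ → ℕ → Fin D → Fl l}
    {vG' : Fin nG → ℕ → Fin D → Fl l} (hJ : ∀ a : Fin nJ, vJ a = vJ' a)
    (hG : ∀ a : Fin nG, vG a = vG' a) (I : KIns (Fl l) (Fin nJ) (Fin nG) Γ (Fin D))
    (hI : ∀ p i tab, I = .t2 p i tab → nm l (r.ph.getD p 0) = R.g.phi p h.1) (b : Fin D) :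
    klS l r R.S.b0 own vJ vG off (knOf gE I) b = R.klink off h own vJ' vG' I b := by
  cases I with
  | lin c =>
    simp only [knOf, klS, RS.klink, if_true]
    rw [RS.lcomb_apply]
    unfold lcomb
    rw [List.map_map]
    congr 1
    refine List.map_congr_left fun p _ => ?_
    simp [nm_cod]
  | tr a i =>
    simp only [knOf, klS, RS.klink]
    rw [if_neg (by norm_num), if_pos trivial, hJ]
  | gm a i =>
    simp only [knOf, klS, RS.klink]
    rw [if_neg (by norm_num), if_neg (by norm_num), if_pos trivial, hG]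
  | t2 p i tab =>
    have h1 : klS l r R.S.b0 own vJ vG off (3, p, i, [], tabG gE tab) b =
        nm l (r.ph.getD p 0) * own (off + i) b -
          own (off + (tabG gE tab).getD (r.gv * D + b) 0) R.S.b0 := by
      unfold klS
      simp
    refine h1.trans ?_
    rw [hI p i tab rfl, hr.gv, getD_tabG]
    rfl

theorem getD_map_insMap {F G : Type} (f : F → G) (pgm : List (Ins F)) (k : ℕ) :
    (pgm.map (insMap f)).getD k (.lin []) = insMap f (pgm.getD k (.lin [])) := by
  rw [List.getD_eq_getElem?_getD, List.getElem?_map, List.getD_eq_getElem?_getD]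
  rcases pgm[k]? with _ | x
  · simp [insMap]
  · simp

theorem hlS_eq (hr : Rep gE R h r) (own : ℕ → Fin D → Fl l) (k : ℕ) (b : Fin D) :
    hlS l r R.S.b0 own (insRaw (r.pg.getD k (.lin []))) b = R.hlink h own (R.Q.ins k) b := by
  rw [hr.pg, getD_map_insMap]
  unfold HProg.ins
  have hmem : R.Q.prog.getD k (.lin []) ∈ R.Q.prog ∨ R.Q.prog.getD k (.lin []) = .lin [] := by
    rcases lt_or_ge k R.Q.prog.length with hk | hk
    · left; rw [List.getD_eq_getElem _ _ hk]; exact List.getElem_mem hk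
    · right; rw [List.getD_eq_default _ _ hk]
  generalize R.Q.prog.getD k (.lin []) = I at hmem ⊢
  have hreg := hr.reg
  cases I with
  | lin c =>
    have h1 : hlS l r R.S.b0 own (insRaw (insMap (cod l) (.lin c))) b =
        ((c.map fun q => (cod l q.1, q.2)).map fun p => nm l p.1 * own (r.reg D p.2) b).sum := by
      unfold hlS insRaw insMap
      simp
    refine h1.trans ?_
    simp only [RS.hlink]
    rw [RS.lcomb_apply]
    unfold lcomb
    rw [List.map_map]
    congr 1
    refine List.map_congr_left fun p _ => ?_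
    simp [nm_cod, hreg]
  | tr j i =>
    have h1 : Ins.tr j i ∈ R.Q.prog := by simpa using hmem
    have h2 : hlS l r R.S.b0 own (insRaw (insMap (cod l) (.tr j i))) b =
        own (r.reg D i + r.iT.getD j 0) b := by
      unfold hlS insRaw insMap
      simp
    rw [h2, hreg, hr.tr_ok j i h1]
    rfl
  | mx j i =>
    have h1 : Ins.mx j i ∈ R.Q.prog := by simpa using hmem
    have h2 : hlS l r R.S.b0 own (insRaw (insMap (cod l) (.mx j i))) b =
        own (r.reg D i + r.iM.getD j 0) b := by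
      unfold hlS insRaw insMap
      simp
    rw [h2, hreg, hr.mx_ok j i h1]
    rfl
  | pub p =>
    have h1 : Ins.pub p ∈ R.Q.prog := by simpa using hmem
    have h2 : hlS l r R.S.b0 own (insRaw (insMap (cod l) (.pub p))) b =
        vS l (r.pr.getD p []) b := by
      unfold hlS insRaw insMap
      simp
    rw [h2, hr.pub_ok p h1, vS_cS]
    rfl
  | sum i =>
    have h2 : hlS l r R.S.b0 own (insRaw (insMap (cod l) (.sum i))) b =
        own (r.reg D i + r.iS) b := by
      unfold hlS insRaw insMap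
      simp
    rw [h2, hreg, hr.iS]
    rfl
  | smul c i =>
    have h2 : hlS l r R.S.b0 own (insRaw (insMap (cod l) (.smul c i))) b =
        own (r.reg D c) R.S.b0 * own (r.reg D i) b := by
      unfold hlS insRaw insMap
      simp
    rw [h2, hreg, hreg]
    rfl

theorem lkS_eq (hr : Rep gE R h r) (own : ℕ → Fin D → Fl l)
    {vJ vG : ℕ → ℕ → Fin D → Fl l} {vJ' : Fin nJ → ℕ → Fin D → Fl l}
    {vG' : Fin nG → ℕ → Fin D → Fl l} (hJ : ∀ a : Fin nJ, vJ a = vJ' a)
    (hG : ∀ a : Fin nG, vG a = vG' a) (j : ℕ) :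
    lkS l r R.S.b0 own vJ vG j = R.linkN j h own vJ' vG' := by
  funext b
  unfold lkS RS.linkN
  rw [hr.KL, hr.n_eq, hr.q]
  split_ifs with h1 h2
  · rw [hr.reg0]
  · exact hr.hlS_eq own _ b
  · have h3 : j % R.P.KL - 1 < R.P.KL - 1 := by
      have := Nat.mod_lt j hr.KL_pos
      omega
    have h4 : r.kit.getD (j % R.P.KL - 1) (0, 0, 0, [], []) =
        knOf gE (R.P.ins (j % R.P.KL - 1)) := by
      rw [hr.kit, List.getD_eq_getElem _ _ (by simpa using h3)]
      simp
    rw [h4, hr.reg]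
    exact hr.klS_eq _ own hJ hG _ (hr.t2_ok _ h3) b

end Rep

/-- The numbers of the wires are `w`. -/
structure WRep (w : WC D nJ nG K) {S : Cd J Γ (Fin D) (Fl l)} {tg : Fin nG → Γ} {tj : Fin nJ → J}
    (W : Wires S tg tj K) : Prop where
  own : W.own = w.own
  nbw : W.nbw = w.nbw
  hw : W.hw = w.hw
  lw : W.lw = w.lw
  iw : W.iw = w.iw
  gw : W.gw = w.gw
  jw : W.jw = w.jw

variable {gE : Γ ≃ Fin ng} {R : RS J Γ (Fin D) (Fl l) (Fin nJ) (Fin nG) n}
  {h : J × Γ} {r : Pub}

omit [Fintype Γ] in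
/-- **Correctness of `linkL`.** -/
theorem linkL_eq (hr : Rep gE R h r) {w : WC D nJ nG K} {W : Wires R.S R.g.gG R.g.sJ K}
    (hW : WRep w W) {DL DR : (Fin D → Option (Fl l)) → Fin D → Fl l}
    {vchk : J × Γ → (ℕ → Fin D → Fl l) → Prop}
    {nxt : Bool → J × Γ → (ℕ → Fin D → Fl l) → List (Fin D → Fl l)}
    {Dn : Q.Dyn (Fin n → J → Fl l)} (j : ℕ) (v : Fin K → List (Fin D → Fl l)) :
    linkL w R.S.b0 r j (List.ofFn fun i => (v i).map (cS l)) =
      cS l ((datOf R W DL DR vchk nxt Dn).link j h v) := by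
  obtain rfl := hr.l_eq
  unfold linkL
  refine congrArg (cS r.l) ?_
  refine (Rep.lkS_eq hr _ (vJ' := fun a => gr (v (W.jw a))) (vG' := fun a => gr (v (W.gw a)))
    ?_ ?_ j).trans ?_
  · intro a
    funext m
    rw [getD_fl, sv_ofFn, hW.jw]
  · intro a
    funext m
    rw [getD_fl, sv_ofFn, hW.gw]
  · have h1 : sv r.l (List.ofFn fun i => (v i).map (cS r.l)) w.own = gr (v W.own) := by
      funext m
      rw [sv_ofFn, hW.own]
    rw [h1]
    rfl

end

end Vale.Agent.P330.H985
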