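import Vale.Agent.P330.W.H659.RecJ
import Vale.Agent.P330.W.H847.SzCalc

/-!
# The records of the sites are small

`sb_recJ`: the codes of the records of the sites are polylogarithmic, if the codes of the lists of
the kit and of the program are.
-/

set_option autoImplicit false

namespace Vale.Agent.P330.H985

open Vale.Agent.Lib.PolyTime Vale.Agent.P330.H933 Vale.Agent.P330.H604
open Vale.Agent.P330.H155 (Kit HProg TopJ OmJ kitJ)
open Vale.Agent.P330.H659 (baseRec siteRec esize_pub esize_siteRec_le baseJ recJ)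
open Vale.Agent.P330.H840 (A0 lqJ dJ leJ kapJ)
open Vale.Agent.P330.H874 (insMap)
open Vale.Agent.P330.H247 (nPubJ nJ)
open Vale.Agent.P330.H838 (QLog)
open Vale.Agent.P330.H847 (SB VB)

/-! ### The part of the record that does not depend on the site -/

section

variable {Γ : Type} [Group Γ] {D l nJ nG ng : ℕ}

theorem esize_tab_le {m : ℕ} (f : Fin m → Fin ng → ℕ) (hf : ∀ b g, f b g ≤ ng) :
    esize (List.ofFn fun b => List.ofFn fun g => f b g) ≤ m * (2 * (ng * (2 * ng + 1)) + 1) := by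
  refine (esize_list_le (B := ng * (2 * ng + 1)) fun x hx => ?_).trans (by simp)
  obtain ⟨b, rfl⟩ := (List.mem_ofFn' _ _).1 hx
  refine (esize_list_le (B := ng) fun y hy => ?_).trans (by simp)
  obtain ⟨g, rfl⟩ := (List.mem_ofFn' _ _).1 hy
  exact (esize_nat_le_self _).trans (hf b g)

theorem esize_baseRec_le (gE : Γ ≃ Fin ng) (eta : Fin D → Γ) (tg : Fin nG → Γ) (ep : Fl l)
    (n : ℕ) (P : Kit (Fl l) (Fin nJ) (Fin nG) Γ (Fin D)) (nE nP : ℕ) (Q : HProg (Fl l)) :
    esize (baseRec gE eta tg ep n P nE nP Q) ≤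
      2 * (3 ^ l + ng + D * (2 * (ng * (2 * ng + 1)) + 1) + nG * (2 * (ng * (2 * ng + 1)) + 1) +
        eF l + n) + 19 +
      2 * esize ((List.range (P.KL - 1)).map fun k => knOf gE (P.ins k)) +
      2 * esize ((List.range nE).map P.iT) + 2 * esize ((List.range nP).map P.iM) +
      2 * esize P.iS + 2 * esize (tabG gE P.iB) + 2 * esize (Q.prog.map (insMap (cod l))) +
      2 * esize Q.eqs + 2 * esize Q.prods + 2 * esize ((List.range n).map (Q.out false)) +
      esize ((List.range n).map (Q.out true)) := by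
  have h1 : esize (Un.mk (3 ^ l)) = 3 ^ l := esize_un _
  have h2 : esize (gE 1 : ℕ) ≤ ng := (esize_nat_le_self _).trans (gE 1).2.le
  have h3 : esize (List.ofFn fun b => List.ofFn fun g : Fin ng =>
      (gE (gE.symm g * (eta b)⁻¹) : ℕ)) ≤ D * (2 * (ng * (2 * ng + 1)) + 1) :=
    esize_tab_le _ fun b g => (Fin.isLt _).le
  have h4 : esize (List.ofFn fun t => List.ofFn fun g : Fin ng =>
      (gE (gE.symm g * tg t) : ℕ)) ≤ nG * (2 * (ng * (2 * ng + 1)) + 1) :=
    esize_tab_le _ fun b g => (Fin.isLt _).le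
  have h5 : esize (cod l ep) ≤ eF l := esize_nat_le (cod_lt _)
  have h6 : esize (Un.mk n) = n := esize_un _
  have h7 : esize (0 : ℕ) = 0 := Nat.le_zero.1 (esize_nat_le_self 0)
  have h8 : esize ([] : List ℕ) = 0 := rfl
  have h9 : esize ([] : List (List Bool)) = 0 := rfl
  rw [esize_pub]
  simp only [baseRec]
  omega

end

/-! ### The records of the family -/

theorem qlog_baseJ (T : TopJ)
    (hkit : QLog fun I => esize ((List.range ((kitJ I).KL - 1)).map fun k =>
      knOf (gE (lqJ I)) ((kitJ I).ins k)))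
    (hiT : QLog fun I => esize ((List.range (kapJ I)).map (kitJ I).iT))
    (hiM : QLog fun I => esize ((List.range (kapJ I)).map (kitJ I).iM))
    (hiS : QLog fun I => esize (kitJ I).iS)
    (hiB : QLog fun I => esize (tabG (gE (lqJ I)) (kitJ I).iB))
    (hpg : QLog fun I => esize ((T.Pg I).prog.map (insMap (cod (leJ I)))))
    (heqs : QLog fun I => esize (T.Pg I).eqs)
    (hprods : QLog fun I => esize (T.Pg I).prods)
    (hout : ∀ z, QLog fun I => esize ((List.range (nJ I)).map ((T.Pg I).out z))) :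
    QLog fun I => esize (baseJ T I) := by
  have c : ∀ n : ℕ, QLog fun _ => n := QLog.const
  have hg : QLog fun I => cG (lqJ I) := H247.qlog_cG
  have ht : QLog fun I => 2 * (cG (lqJ I) * (2 * cG (lqJ I) + 1)) + 1 :=
    ((c 2).mul (hg.mul (((c 2).mul hg).add (c 1)))).add (c 1)
  refine QLog.mono ?_ fun I => esize_baseRec_le _ _ _ _ _ _ _ _ _
  refine QLog.add ?_ (hout true)
  refine QLog.add ?_ ((c 2).mul (hout false))
  refine QLog.add ?_ ((c 2).mul hprods)
  refine QLog.add ?_ ((c 2).mul heqs)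
  refine QLog.add ?_ ((c 2).mul hpg)
  refine QLog.add ?_ ((c 2).mul hiB)
  refine QLog.add ?_ ((c 2).mul hiS)
  refine QLog.add ?_ ((c 2).mul hiM)
  refine QLog.add ?_ ((c 2).mul hiT)
  refine QLog.add ?_ ((c 2).mul hkit)
  exact ((c 2).mul (((((H247.qlog_three_pow_leJ.add hg).add ((c _).mul ht)).add
    ((c _).mul ht)).add H247.qlog_eF_leJ).add H247.qlog_nJ)).add (c 19)

/-- **The records of the sites are small.** -/
theorem sb_recJ (T : TopJ) (h : QLog fun I => esize (baseJ T I)) :
    SB fun I (s : OmJ I) => recJ T I s := by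
  have c : ∀ n : ℕ, QLog fun _ => n := QLog.const
  have hg : QLog fun I => cG (lqJ I) := H247.qlog_cG
  refine ⟨fun I => esize (baseJ T I) + 2 * (cG (lqJ I) + cG (lqJ I) * (2 * cG (lqJ I) + 1) +
      kapJ I * (2 * eF (leJ I) + 1) + nPubJ I * (2 * (3 * (H155.nLab A0 * eF (leJ I))) + 1)),
    ?_, fun I s => esize_siteRec_le _ _ _ _ _ _ _⟩
  exact h.add ((c 2).mul (((hg.add (hg.mul (((c 2).mul hg).add (c 1)))).add
    (H247.qlog_kapJ.mul (((c 2).mul H247.qlog_eF_leJ).add (c 1)))).add
    (H247.qlog_nPubJ.mul (((c 2).mul ((c 3).mul ((c _).mul H247.qlog_eF_leJ))).add (c 1)))))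

end Vale.Agent.P330.H985
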