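import Vale.Agent.P330.H985.ConJ
import Vale.Agent.P330.H985.SzRec
import Vale.Agent.P330.W.H281.RestJ
import Vale.Agent.P330.H633.SolI

/-!
# The inputs of the family of block systems

`recInJ`: programs and records of the sites; `solInJ`: the reading of the solution; `sfamJ`: the
family of block systems, from a family of content programs.
-/

set_option autoImplicit false

namespace Vale.Agent.P330.H985

open Vale.Agent.Lib.PolyTime Vale.Agent.P330.H933
open Vale.Agent.P330.H155 (TopJ)
open Vale.Agent.P330.H659 (baseJ recJ PubLt ProgPT rep_recJ pubT pubT_eq pt_pubT)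
open Vale.Agent.P330.H838 (QLog)

/-- **Programs and records of the sites.** -/
noncomputable def recInJ (T : TopJ) (hT : PubLt T) (hP : ProgPT T)
    (hs : QLog fun I => esize (baseJ T I)) : H281.RecIn T Pub where
  P := sitePrg cJ wJ
  hP := sitePrg_pts cJ wJ
  pub := recJ T
  rep I := site_repJ T I (fun s => rep_recJ hT I s) fun _ => rfl
  pubT := pubT T
  pubT_pt := pt_pubT hP
  pubT_eq := pubT_eq T
  sb := sb_recJ T hs

/-- **The reading of the solution.** -/
noncomputable def solInJ (T : TopJ) : H281.SolIn T where
  solT := _
  solT_pt := H633.PT_solJ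
  solT_ok I w hw hw' := H633.solJ_ok T I w hw hw'

/-- **The family of block systems from a family of content programs.** -/
noncomputable def sfamJ (T : TopJ) (hT : PubLt T) (hP : ProgPT T)
    (hs : QLog fun I => esize (baseJ T I)) : H475.SFam :=
  ((recInJ T hT hP hs).rest (solInJ T)).sfam

end Vale.Agent.P330.H985
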