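import Vale.Agent.Lib.PCP.PT.Iter
import Vale.Agent.Lib.PolyTime.Lists3

/-!
# All rows at all sites, in polynomial time

`tab N S row` is the table of the first `S` rows at the sites `0, …, N-1`.  If the rows `nb + j` are
computed from the older rows at the neighbours by a function `lk` in polynomial time, then the
table is computed in polynomial time from the table of the first `nb` rows.
-/

namespace Vale.Agent.P330.H985

open Vale.Agent.Lib.PolyTime

variable {A : Set Word} {α β π : Type*} [Enc α] [Enc β] [Enc π]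

/-- The first `S` rows at the site `h`. -/
def stkT (row : ℕ → ℕ → β) (S h : ℕ) : List β := (List.range S).map fun j => row j h

/-- The first `S` rows at the sites `0, …, N-1`. -/
def tabT (row : ℕ → ℕ → β) (N S : ℕ) : List (List β) := (List.range N).map (stkT row S)

@[simp] theorem length_stkT (row : ℕ → ℕ → β) (S h : ℕ) : (stkT row S h).length = S := by
  simp [stkT]

@[simp] theorem length_tabT (row : ℕ → ℕ → β) (N S : ℕ) : (tabT row N S).length = N := by
  simp [tabT]

theorem getD_tabT (row : ℕ → ℕ → β) {N h : ℕ} (S : ℕ) (hh : h < N) :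
    (tabT row N S).getD h [] = stkT row S h := by
  unfold tabT
  rw [List.getD_eq_getElem _ _ (by simpa using hh)]
  simp

theorem stkT_succ (row : ℕ → ℕ → β) (S h : ℕ) : stkT row (S + 1) h = stkT row S h ++ [row S h] := by
  unfold stkT
  rw [List.range_succ, List.map_append]
  rfl

theorem stkT_congr {row row' : ℕ → ℕ → β} {S h : ℕ} (H : ∀ j < S, row j h = row' j h) :
    stkT row S h = stkT row' S h := by
  unfold stkT
  exact List.map_congr_left fun j hj => H j (List.mem_range.1 hj)

/-- The table grows by one row. -/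
def grow (lk : π → ℕ → List (List β) → β) (pub : ℕ → π) (wr : ℕ → List ℕ) (N j : ℕ)
    (T : List (List β)) : List (List β) :=
  (List.range N).map fun h =>
    T.getD h [] ++ [lk (pub h) j ((wr h).map fun h' => T.getD h' [])]

theorem grow_tabT {lk : π → ℕ → List (List β) → β} {pub : ℕ → π} {wr : ℕ → List ℕ} {N nb j : ℕ}
    {row : ℕ → ℕ → β} (hw : ∀ h < N, ∀ h' ∈ wr h, h' < N)
    (hr : ∀ h < N, row (nb + j) h = lk (pub h) j ((wr h).map (stkT row (nb + j)))) :
    grow lk pub wr N j (tabT row N (nb + j)) = tabT row N (nb + (j + 1)) := by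
  unfold grow
  conv_rhs => unfold tabT
  refine List.map_congr_left fun h hh => ?_
  have hh' := List.mem_range.1 hh
  rw [getD_tabT _ _ hh', ← add_assoc, stkT_succ, hr h hh']
  congr 3
  exact List.map_congr_left fun h' hh2 => getD_tabT _ _ (hw h hh' h' hh2)

theorem rec_tabT {lk : π → ℕ → List (List β) → β} {pub : ℕ → π} {wr : ℕ → List ℕ} {N nb : ℕ}
    {row : ℕ → ℕ → β} (hw : ∀ h < N, ∀ h' ∈ wr h, h' < N) : ∀ L : ℕ,
    (∀ j < L, ∀ h < N, row (nb + j) h = lk (pub h) j ((wr h).map (stkT row (nb + j)))) →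
    Nat.rec (motive := fun _ => List (List β)) (tabT row N nb) (grow lk pub wr N) L =
      tabT row N (nb + L) := by
  intro L
  induction L with
  | zero => intro _; rfl
  | succ L ih =>
    intro hr
    have h1 := ih fun j hj => hr j (hj.trans L.lt_succ_self)
    show grow lk pub wr N L (Nat.rec (motive := fun _ => List (List β)) (tabT row N nb)
      (grow lk pub wr N) L) = _
    rw [h1]
    exact grow_tabT hw (hr L L.lt_succ_self)

theorem esize_tabT_le {row : ℕ → ℕ → β} {N S B : ℕ} (H : ∀ j < S, ∀ h < N, esize (row j h) ≤ B) :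
    esize (tabT row N S) ≤ N * (2 * (S * (2 * B + 1)) + 1) := by
  have h1 : ∀ x ∈ tabT row N S, esize x ≤ S * (2 * B + 1) := by
    intro x hx
    obtain ⟨h, hh, rfl⟩ := List.mem_map.1 hx
    refine (esize_list_le (B := B) fun y hy => ?_).trans (by simp)
    obtain ⟨j, hj, rfl⟩ := List.mem_map.1 hy
    exact H j (List.mem_range.1 hj) h (List.mem_range.1 hh)
  refine (esize_list_le h1).trans (by simp)

/-- **All rows in polynomial time.** -/
theorem PT.tabT {nb L N : α → ℕ} {row : α → ℕ → ℕ → β} {lk : π → ℕ → List (List β) → β}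
    {pub : α → ℕ → π} {wr : α → ℕ → List ℕ} {B : α → ℕ}
    (hnb : PBd nb) (hL : PT A L) (hLb : PBd L) (hN : PT A N) (hNb : PBd N)
    (hbase : PT A (fun a => tabT (row a) (N a) (nb a)))
    (hlk : PT A (fun p : π × ℕ × List (List β) => lk p.1 p.2.1 p.2.2))
    (hpub : PT A (fun p : α × ℕ => pub p.1 p.2)) (hwr : PT A (fun p : α × ℕ => wr p.1 p.2))
    (hw : ∀ a, ∀ h < N a, ∀ h' ∈ wr a h, h' < N a)
    (hr : ∀ a, ∀ j < L a, ∀ h < N a,
      row a (nb a + j) h = lk (pub a h) j ((wr a h).map (stkT (row a) (nb a + j))))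
    (hB : PBd B) (hrow : ∀ a, ∀ j < nb a + L a, ∀ h < N a, esize (row a j h) ≤ B a) :
    PT A (fun a => H985.tabT (row a) (N a) (nb a + L a)) := by
  have hstep : PT A (fun p : α × ℕ × List (List β) =>
      grow lk (pub p.1) (wr p.1) (N p.1) p.2.1 p.2.2) := by
    unfold grow
    refine PT.tabulate (hN.comp PT.fst') (PBd.comp hNb (PT.fst' (A := A))) ?_
    have h1 : PT A (fun q : (α × ℕ × List (List β)) × ℕ => q.1.2.2.getD q.2 []) :=
      PT.getD PT.fst'.snd.snd PT.snd' (PT.const [])
    have h2 : PT A (fun q : (α × ℕ × List (List β)) × ℕ =>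
        (wr q.1.1 q.2).map fun h' => q.1.2.2.getD h' []) :=
      PT.map (f := fun (q : (α × ℕ × List (List β)) × ℕ) h' => q.1.2.2.getD h' [])
        (hwr.comp (PT.fst'.fst.pair PT.snd'))
        (PT.getD PT.fst'.fst.snd.snd PT.snd' (PT.const []))
    have h3 : PT A (fun q : (α × ℕ × List (List β)) × ℕ =>
        lk (pub q.1.1 q.2) q.1.2.1 ((wr q.1.1 q.2).map fun h' => q.1.2.2.getD h' [])) :=
      hlk.comp ((hpub.comp (PT.fst'.fst.pair PT.snd')).pair (PT.fst'.snd.fst.pair h2))
    exact PT.append h1 (PT.cons h3 (PT.const []))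
  have hb : PBd (fun a => N a * (2 * ((nb a + L a) * (2 * B a + 1)) + 1)) := by fun_prop
  refine (PT.natRec (step := fun a => grow lk (pub a) (wr a) (N a)) hL hLb hbase hstep hb
    fun a j hj => ?_).congr fun a => rec_tabT (hw a) (L a) (hr a)
  rw [rec_tabT (hw a) j fun i hi => hr a i (lt_of_lt_of_le hi hj)]
  refine (esize_tabT_le (B := B a) fun i hi h hh => hrow a i (by omega) h hh).trans ?_
  exact Nat.mul_le_mul_left _ (by
    have : (nb a + j) * (2 * B a + 1) ≤ (nb a + L a) * (2 * B a + 1) :=
      Nat.mul_le_mul_right _ (by omega)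
    omega)

end Vale.Agent.P330.H985
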