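import Vale.Agent.P330.H985.Chk
import Vale.Agent.P330.H708.LocDec
import Vale.Agent.P330.W.H912.Wsym

/-!
# The site functions of the concrete register system, in polynomial time

`sitePrg` is the program (in the sense of `H912.WPrg`) of the register system `R.sysOf`:
`sitePrg_pts` (polynomial time) and `sitePrg_rep` (it describes the system at every site whose
record is correct).
-/

set_option autoImplicit false

namespace Vale.Agent.P330.H985

open Function
open Vale.Agent.Lib.PolyTime Vale.Agent.P330.H933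
open Vale.Agent.P330.H155 (Cd Gen KIns Kit HProg RS lcomb)
open Vale.Agent.P330.H16 (Ins)
open Vale.Agent.P330.H874 (insRaw insMap)
open Vale.Agent.P330.H840 (Wires Dat datOf gr)
open Vale.Agent.P330.H708 (decLC holdS)

section

variable {D : ℕ} (c : LC D) {nJ nG K : ℕ} (w : WC D nJ nG K)

/-! ### The remaining site functions -/

/-- The scaling of the right local code. -/
noncomputable def LC.s1 (l : ℕ) (e : Fl l) (b : Fin D) : Fl l := if b ∈ c.B1 then e else 1

/-- One round of decoding on words. -/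
noncomputable def decL (r : Pub) (v : List (Option (List Bool))) : List Bool :=
  cS r.l (holdS w.hw (decLC c.T0 (Equiv.refl _) r.l fun _ => 1)
    (decLC c.T1 (Equiv.refl _) r.l (c.s1 r.l (nm r.l r.ep)))
    fun i => (v.getD i none).map (vS r.l))

open Classical in
/-- The test of the assertions on words. -/
noncomputable def vchkL (r : Pub) (v : List (List (List Bool))) : Bool :=
  (r.eqs.all fun p => decide (∀ b : Fin D, sv r.l v w.own (r.reg D p.1) b =
    sv r.l v w.own (r.reg D p.2) b)) &&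
  r.prods.all fun p => decide (sv r.l v w.own (r.reg D p.1) c.b0 =
    sv r.l v w.own (r.reg D p.2.1) c.b0 * sv r.l v w.own (r.reg D p.2.2) c.b0)

/-- The base rows of the next content on words. -/
noncomputable def nxtL (r : Pub) (z : Bool) (v : List (List (List Bool))) : List (List Bool) :=
  (List.range (r.n.v * r.q D)).map fun k =>
    cS r.l (sv (D := D) r.l v w.own
      (r.reg D ((bif z then r.out1 else r.out0).getD (k / r.q D) 0) +
        r.iB.getD (k % r.q D) 0))

/-- The program of the register system. -/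
noncomputable def sitePrg : W.H912.WPrg Pub where
  own := w.own
  nb r := r.n.v * r.q D
  L r := (r.n.v + r.pg.length) * r.KL
  sl r := D * eF r.l
  s0 r := cS (D := D) r.l 0
  link := linkL w c.b0
  chk r _ v := chkL c w r v
  bchk := bchkL c w
  vchk := vchkL c w
  dec r _ v := decL c w r v
  nxt := nxtL w

end

/-! ### Polynomial time -/

section pt

variable {A : Set Word} {α : Type*} [Enc α] {D : ℕ} (c : LC D) {nJ nG K : ℕ} (w : WC D nJ nG K)

theorem FT.s1 {l : α → ℕ} {e : ∀ a, Fl (l a)} (he : FT A l e) (b : Fin D) :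
    FT A l (fun a => c.s1 (l a) (e a) b) := by
  unfold LC.s1
  by_cases hb : b ∈ c.B1
  · exact he.congr fun a => by rw [if_pos hb]
  · exact FT.one.congr fun a => by rw [if_neg hb]

/-- **`dec` is computable in polynomial time.** -/
theorem pt_decL {r : α → Pub} (hr : PT A r) {v : α → List (Option (List Bool))} (hv : PT A v) :
    PT A (fun a => decL c w (r a) (v a)) := by
  have hl := Pub.lpar hr
  unfold decL
  refine PT.cS hl fun b => ?_
  have hy : ∀ (i : Fin K) (b' : Fin D), FT A (fun a => (r a).l) fun a =>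
      ((((v a).getD i none).map (vS (r a).l)).map fun x : Fin D → Fl (r a).l => x b').getD 0 := by
    intro i b'
    have h1 : PT A (fun a => (v a).getD (i : ℕ) none) := PT.getD hv (PT.const _) (PT.const none)
    have hr' : PT A (fun p : α × List Bool => r p.1) := hr.comp PT.fst'
    have h2 := PT.optCase (f := fun a => cod (r a).l 0)
      (g := fun a x => cod (r a).l (vS (r a).l x b')) h1
      (FT.zero (l := fun a => (r a).l))
      (FT.vS (l := fun p : α × List Bool => (r p.1).l) (Pub.lpar hr') PT.snd' b')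
    refine h2.congr fun a => ?_
    beta_reduce
    rcases (v a).getD (i : ℕ) none with _ | x <;> rfl
  have h1 : ∀ b : Fin D, FT A (fun a => (r a).l) fun a =>
      decLC c.T1 (Equiv.refl _) (r a).l (c.s1 (r a).l (nm (r a).l (r a).ep))
        (fun b' => (((v a).getD (w.hw b b') none).map (vS (r a).l)).map
          fun x : Fin D → Fl (r a).l => x b') b := by
    intro b
    exact H708.FT.decLC (B := Fin D) hl c.T1 (Equiv.refl _)
      (s := fun a => c.s1 (r a).l (nm (r a).l (r a).ep))
      (fun b => FT.s1 c (FT.nm hl (Pub.pt_ep hr)) b)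
      (y := fun a b' => (((v a).getD (w.hw b b') none).map (vS (r a).l)).map
        fun x : Fin D → Fl (r a).l => x b') (fun b' => hy (w.hw b b') b') b
  have h2 := H708.FT.decLC (B := Fin D) hl c.T0 (Equiv.refl _) (s := fun _ _ => 1)
    (fun _ => FT.one)
    (y := fun a b => some (decLC c.T1 (Equiv.refl _) (r a).l
      (c.s1 (r a).l (nm (r a).l (r a).ep))
        (fun b' => (((v a).getD (w.hw b b') none).map (vS (r a).l)).map
          fun x : Fin D → Fl (r a).l => x b') b)) (fun b => h1 b) b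
  exact h2

/-- **`vchk` is computable in polynomial time.** -/
theorem pt_vchkL {r : α → Pub} (hr : PT A r) {v : α → List (List (List Bool))} (hv : PT A v) :
    PT A (fun a => vchkL c w (r a) (v a)) := by
  classical
  unfold vchkL
  refine PT.and (PT.all (Pub.pt_eqs hr) ?_) (PT.all (Pub.pt_prods hr) ?_)
  · have hr' : PT A (fun p : α × (ℕ × ℕ) => r p.1) := hr.comp PT.fst'
    refine PT.decide_congr (p := fun q : α × (ℕ × ℕ) => ∀ b : Fin D,
      sv (r q.1).l (v q.1) w.own ((r q.1).reg D q.2.1) b =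
        sv (r q.1).l (v q.1) w.own ((r q.1).reg D q.2.2) b) (PT.ball' fun b => ?_)
      fun a => Iff.rfl
    exact FT.eq (FT.sv (Pub.lpar hr') (hv.comp PT.fst') (PT.const _)
      (Pub.pt_reg hr' D PT.snd'.fst) b)
      (FT.sv (Pub.lpar hr') (hv.comp PT.fst') (PT.const _) (Pub.pt_reg hr' D PT.snd'.snd) b)
  · have hr' : PT A (fun p : α × (ℕ × ℕ × ℕ) => r p.1) := hr.comp PT.fst'
    refine PT.decide_congr (p := fun q : α × (ℕ × ℕ × ℕ) =>
      sv (r q.1).l (v q.1) w.own ((r q.1).reg D q.2.1) c.b0 =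
        sv (r q.1).l (v q.1) w.own ((r q.1).reg D q.2.2.1) c.b0 *
          sv (r q.1).l (v q.1) w.own ((r q.1).reg D q.2.2.2) c.b0) ?_ fun a => Iff.rfl
    exact FT.eq (FT.sv (Pub.lpar hr') (hv.comp PT.fst') (PT.const _)
      (Pub.pt_reg hr' D PT.snd'.fst) c.b0)
      (FT.mul (Pub.lpar hr') (FT.sv (Pub.lpar hr') (hv.comp PT.fst') (PT.const _)
        (Pub.pt_reg hr' D PT.snd'.snd.fst) c.b0)
        (FT.sv (Pub.lpar hr') (hv.comp PT.fst') (PT.const _)
          (Pub.pt_reg hr' D PT.snd'.snd.snd) c.b0))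

theorem Pub.pbd_q {r : α → Pub} (hr : PT A r) (D : ℕ) : PBd (fun a => (r a).q D) :=
  (PBd.length (Pub.pt_mv hr)).mul (PBd.const D)

theorem Pub.pbd_KL {r : α → Pub} (hr : PT A r) : PBd (fun a => (r a).KL) :=
  (PBd.length (Pub.pt_kit hr)).add (PBd.const 1)

/-- **`nxt` is computable in polynomial time.** -/
theorem pt_nxtL {r : α → Pub} (hr : PT A r) {z : α → Bool} (hz : PT A z)
    {v : α → List (List (List Bool))} (hv : PT A v) :
    PT A (fun a => nxtL w (r a) (z a) (v a)) := by
  unfold nxtL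
  have hr' : PT A (fun p : α × ℕ => r p.1) := hr.comp PT.fst'
  have hq : PT A (fun p : α × ℕ => (r p.1).q D) := Pub.pt_q hr' D
  refine PT.map (l := fun a => List.range ((r a).n.v * (r a).q D))
    (PT.range (PT.mul (PT.unVal (Pub.pt_n hr)) (Pub.pt_q hr D))
      ((PBd.unVal (Pub.pt_n hr)).mul (Pub.pbd_q hr D))) ?_
  refine PT.cS (l := fun p : α × ℕ => (r p.1).l) (Pub.lpar hr') fun b => ?_
  refine FT.sv (Pub.lpar hr') (hv.comp PT.fst') (PT.const _) (PT.add (Pub.pt_reg hr' D
    (PT.getD (PT.cond (hz.comp PT.fst') (Pub.pt_out1 hr') (Pub.pt_out0 hr'))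
      (PT.div PT.snd' hq) (PT.const 0))) (PT.getD (Pub.pt_iB hr') (PT.mod PT.snd' hq)
        (PT.const 0))) b

/-- **The programs are computable in polynomial time.** -/
theorem sitePrg_pts : (sitePrg c w).PTs A where
  nb := PT.mul (PT.unVal (Pub.pt_n PT.id)) (Pub.pt_q PT.id D)
  nb_bd := (PBd.unVal (Pub.pt_n (A := A) PT.id)).mul (Pub.pbd_q (A := A) PT.id D)
  L := PT.mul (PT.add (PT.unVal (Pub.pt_n PT.id)) (PT.length (Pub.pt_pg PT.id)))
    (Pub.pt_KL PT.id)
  L_bd := ((PBd.unVal (Pub.pt_n (A := A) PT.id)).add (PBd.length (Pub.pt_pg (A := A) PT.id))).mul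
    (Pub.pbd_KL (A := A) PT.id)
  sl := PT.mul (PT.const D) (Pub.lpar PT.id).eF
  sl_bd := (PBd.const D).mul (Pub.lpar (A := A) PT.id).eFbd
  s0 := PT.cS (l := fun r : Pub => r.l) (Pub.lpar PT.id) fun _ => FT.zero
  link := pt_linkL w c.b0 PT.fst' PT.snd'.fst PT.snd'.snd
  chk := pt_chkL c w PT.fst' PT.snd'.snd
  bchk := pt_bchkL c w PT.fst' PT.snd'
  vchk := pt_vchkL c w PT.fst' PT.snd'
  dec := pt_decL c w PT.fst' PT.snd'.snd
  nxt := pt_nxtL w PT.fst' PT.snd'.fst PT.snd'.snd

end pt

/-! ### Correctness -/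

section

variable {J Γ : Type} [AddCommGroup J] [Fintype J] [Group Γ] [Fintype Γ] [DistribMulAction Γ J]
  {D l nJ nG n ng K : ℕ} {gE : Γ ≃ Fin ng} {R : RS J Γ (Fin D) (Fl l) (Fin nJ) (Fin nG) n}
  {h : J × Γ} {r : Pub} {c : LC D} {w : WC D nJ nG K} {W : Wires R.S R.g.gG R.g.sJ K}
  {DL DR : (Fin D → Option (Fl l)) → Fin D → Fl l} {Dn : Q.Dyn (Fin n → J → Fl l)}

/-- The decoders are the table decoders of the constants. -/
structure DRep (c : LC D) (r : Pub) (DL DR : (Fin D → Option (Fl l)) → Fin D → Fl l) : Prop where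
  DL : DL = decLC c.T0 (Equiv.refl _) l fun _ => 1
  DR : DR = decLC c.T1 (Equiv.refl _) l (c.s1 l (nm l r.ep))

omit [Fintype Γ] in
theorem decL_eq (hr : Rep gE R h r) (hD : DRep c r DL DR) (hW : WRep w W)
    {vchk : J × Γ → (ℕ → Fin D → Fl l) → Prop}
    {nxt : Bool → J × Γ → (ℕ → Fin D → Fl l) → List (Fin D → Fl l)}
    (j : ℕ) (v : Fin K → Option (Fin D → Fl l)) :
    decL c w r (List.ofFn fun i => (v i).map (cS l)) =
      cS l ((datOf R W DL DR vchk nxt Dn).dec j h v) := by
  obtain rfl := hr.l_eq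
  unfold decL
  refine congrArg (cS r.l) ?_
  have h1 : (fun i : Fin K => ((List.ofFn fun i => (v i).map (cS r.l)).getD (i : ℕ) none).map
      (vS r.l)) = v := by
    funext i
    rw [List.getD_eq_getElem _ _ (by simp)]
    simp only [List.getElem_ofFn, Fin.eta]
    rcases v i with _ | x
    · rfl
    · simp [vS_cS]
  rw [h1]
  unfold holdS
  change _ = DL fun b => some (DR (fun b' => (v (W.hw b b')).map fun x => x b') b)
  rw [hD.DL, hD.DR, hW.hw]

omit [Fintype J] [Fintype Γ] in
open Classical in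
theorem vchkL_iff (hr : Rep gE R h r) (hc : CRep c R.S r) (hW : WRep w W)
    (v : Fin K → List (Fin D → Fl l)) :
    vchkL c w r (List.ofFn fun i => (v i).map (cS l)) = true ↔ R.vchkN (gr (v W.own)) := by
  obtain rfl := hr.l_eq
  unfold vchkL RS.vchkN
  have h1 : sv r.l (List.ofFn fun i => (v i).map (cS r.l)) w.own = gr (v W.own) := by
    funext m
    rw [sv_ofFn, hW.own]
  rw [h1, Bool.and_eq_true, List.all_eq_true, List.all_eq_true, hr.eqs, hr.prods]
  simp only [decide_eq_true_eq, hr.reg, hc.b0, funext_iff]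

omit [Fintype J] [Fintype Γ] in
theorem nxtL_eq (hr : Rep gE R h r) (hW : WRep w W) (z : Bool)
    (v : Fin K → List (Fin D → Fl l)) :
    nxtL w r z (List.ofFn fun i => (v i).map (cS l)) =
      ((List.range R.nb).map (R.nxtN z (gr (v W.own)))).map (cS l) := by
  obtain rfl := hr.l_eq
  unfold nxtL
  rw [List.map_map, hr.n_eq, hr.q]
  refine List.map_congr_left fun k hk => ?_
  have hk' : k < n * R.q := List.mem_range.1 hk
  have hq : 0 < R.q := by
    rcases Nat.eq_zero_or_pos R.q with h0 | h0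
    · rw [h0] at hk'; simp at hk'
    · exact h0
  have hdiv : k / R.q < n := Nat.div_lt_of_lt_mul (by rwa [Nat.mul_comm] at hk')
  have hmod : k % R.q < R.q := Nat.mod_lt _ hq
  have hout : (bif z then r.out1 else r.out0).getD (k / R.q) 0 = R.Q.out z (k / R.q) := by
    cases z
    · exact hr.out0 _ hdiv
    · exact hr.out1 _ hdiv
  have hiB : r.iB.getD (k % R.q) 0 = R.P.iB (R.enN (k % R.q)).1 (R.enN (k % R.q)).2 := by
    rw [← hr.iB, ← hr.en_eq]
    unfold RS.enN
    rw [dif_pos hmod]
    simp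
  rw [hout, hiB, hr.reg]
  simp only [Function.comp_apply]
  refine congrArg (cS r.l) ?_
  rw [sv_ofFn, ← hW.own]
  rfl

omit [Fintype Γ] in
/-- **The program describes the register system.** -/
theorem sitePrg_rep {pub : J × Γ → Pub} (hr : ∀ h, Rep gE R h (pub h))
    (hc : ∀ h, CRep c R.S (pub h)) (hD : ∀ h, DRep c (pub h) DL DR) (hW : WRep w W) :
    (sitePrg c w).Rep (R.sysOf W DL DR Dn).sys pub where
  own := by
    change (W.own : ℕ) = w.own
    rw [hW.own]
  nb h := by
    change (pub h).n.v * (pub h).q D = n * R.q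
    rw [(hr h).n_eq, (hr h).q]
  L h := by
    change ((pub h).n.v + (pub h).pg.length) * (pub h).KL = (n + R.Q.HL) * R.P.KL
    rw [(hr h).n_eq, (hr h).KL, (hr h).pg, List.length_map]
    rfl
  sl h := by
    change D * eF (pub h).l = D * eF l
    rw [(hr h).l_eq]
  s0 h := by
    change cS (D := D) (pub h).l 0 = cS l 0
    obtain rfl := (hr h).l_eq
    rfl
  link h j _ v _ := by
    have h0 : R.S.b0 = c.b0 := (hc h).b0
    change linkL w c.b0 (pub h) j _ = _
    rw [← h0]
    exact linkL_eq (DL := DL) (DR := DR) (vchk := fun _ own => R.vchkN own)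
      (nxt := fun z _ own => (List.range R.nb).map (R.nxtN z own)) (Dn := Dn) (hr h) hW j v
  chk h j _ v := chkL_iff (hr h) (hc h) hW j v
  bchk h v _ := bchkL_iff (hr h) (hc h) hW v
  vchk h v _ := vchkL_iff (hr h) (hc h) hW v
  dec h j _ v := decL_eq (hr h) (hD h) hW j v
  nxt h z v _ := nxtL_eq (hr h) hW z v

end

end Vale.Agent.P330.H985
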