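import Vale.Agent.P330.H985.RecInJ
import Vale.Agent.P330.W.H659.ParP
import Vale.Agent.P330.H874.TopMPT
import Vale.Agent.P330.H247.KitSz
import Vale.Agent.P330.H780.TopPub
import Vale.Agent.P330.H743.TopJI

/-!
# The family of block systems

The content programs of the machines of the instances are computable in polynomial time, and the
codes of their lists are polylogarithmic; `sfam`: the family of block systems.
-/

set_option autoImplicit false

namespace Vale.Agent.P330.H985

open Vale.Agent.Lib.PolyTime Vale.Agent.P330.H933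
open Vale.Agent.P330.H743 (topJ)
open Vale.Agent.P330.H155 (rJ)
open Vale.Agent.P330.H840 (leJ mpJ mpJ_good)
open Vale.Agent.P330.H874 (SPar)
open Vale.Agent.P330.H659 (PJ PubLt ProgPT qlog_ptJ baseJ)
open Vale.Agent.P330.H838 (QLog)

/-- The programs in polynomial time. -/
theorem sparI : SPar ∅ leJ mpJ rJ := SPar.of_mpar H155.mparJ mpJ_good H155.rparJ

/-- The programs in polynomial time from the small parameters. -/
theorem sparPJ : SPar ∅ (fun p : PJ => leJ p.I) (fun p => mpJ p.I) (fun p => rJ p.I) :=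
  ⟨PJ.lpar, ⟨PJ.pt_k, PJ.pb_k⟩, PJ.npar, PJ.pt_n, ⟨PJ.pt_L, PJ.pb_L⟩, PJ.pt_dir, PJ.pt_off,
    fun p => mpJ_good p.I, (PJ.rpar (A := ∅)).s_e⟩

theorem progPTJ : ProgPT topJ where
  pg := sparI.prog
  eqs := sparI.eqs
  prods := sparI.prods
  out z := sparI.outL z H155.pt_nJ H155.pbd_nJ

theorem pubLtJ : PubLt topJ := fun I p hp => H780.pub_lt (mpJ I) (rJ I) p hp

theorem qlog_base : QLog fun I => esize (baseJ topJ I) :=
  qlog_baseJ topJ H247.qlog_kitJ H247.qlog_iTJ H247.qlog_iMJ H247.qlog_iSJ H247.qlog_iBJ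
    (qlog_ptJ sparPJ.prog) (qlog_ptJ sparPJ.eqs) (qlog_ptJ sparPJ.prods)
    fun z => qlog_ptJ (sparPJ.outL z PJ.pt_nJ PJ.pb_nJ)

/-- **The family of block systems.** -/
noncomputable def sfam : H475.SFam := sfamJ topJ pubLtJ progPTJ qlog_base

end Vale.Agent.P330.H985
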